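import Crest.Agent.R210.Defs

/-! # Piece AV: elementary facts on averages `av f = (∑ x, f x) / card` -/

set_option autoImplicit false

namespace Crest.Agent.R210

section
variable {α β : Type} [Fintype α] [Fintype β]

theorem av_mono {f g : α → ℝ} (h : ∀ x, f x ≤ g x) : av f ≤ av g := by
  unfold av
  exact div_le_div_of_nonneg_right (Finset.sum_le_sum fun x _ => h x) (Nat.cast_nonneg _)

theorem av_nonneg {f : α → ℝ} (h : ∀ x, 0 ≤ f x) : 0 ≤ av f := by
  unfold av
  exact div_nonneg (Finset.sum_nonneg fun x _ => h x) (Nat.cast_nonneg _)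

theorem av_const [Nonempty α] (c : ℝ) : av (fun _ : α => c) = c := by
  unfold av
  have : (Fintype.card α : ℝ) ≠ 0 := by exact_mod_cast Fintype.card_ne_zero
  rw [Finset.sum_const, Finset.card_univ, nsmul_eq_mul, mul_div_cancel_left₀ _ this]

theorem av_le_const [Nonempty α] {f : α → ℝ} {c : ℝ} (h : ∀ x, f x ≤ c) : av f ≤ c :=
  (av_mono h).trans (av_const c).le

theorem le_av_const [Nonempty α] {f : α → ℝ} {c : ℝ} (h : ∀ x, c ≤ f x) : c ≤ av f :=
  (av_const c).ge.trans (av_mono h)

theorem av_add (f g : α → ℝ) : av (fun x => f x + g x) = av f + av g := by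
  unfold av
  rw [Finset.sum_add_distrib, add_div]

theorem av_mul_left (c : ℝ) (f : α → ℝ) : av (fun x => c * f x) = c * av f := by
  unfold av
  rw [← Finset.mul_sum, mul_div_assoc]

theorem av_sum {ι : Type} (s : Finset ι) (f : ι → α → ℝ) :
    av (fun x => ∑ i ∈ s, f i x) = ∑ i ∈ s, av (f i) := by
  unfold av
  rw [Finset.sum_comm, Finset.sum_div]

theorem av_comm (f : α → β → ℝ) :
    av (fun x => av (fun y => f x y)) = av (fun y => av (fun x => f x y)) := by
  unfold av
  rw [← Finset.sum_div, ← Finset.sum_div, Finset.sum_comm, div_div, div_div, mul_comm]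

theorem av_prod (f : α × β → ℝ) : av f = av (fun x => av (fun y => f (x, y))) := by
  unfold av
  rw [Fintype.sum_prod_type, Fintype.card_prod, ← Finset.sum_div, div_div]
  push_cast
  rw [mul_comm]

theorem av_equiv (e : α ≃ β) (f : β → ℝ) : av (fun x => f (e x)) = av f := by
  unfold av
  rw [Fintype.card_congr e, Equiv.sum_comp e]

end

/-- if for every `ω` the average over the `i`-th coordinate is `≤ c`, so is the total average -/
theorem av_pi_le {ι : Type} [Fintype ι] [DecidableEq ι] {Ω : ι → Type} [∀ i, Fintype (Ω i)]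
    [∀ i, Nonempty (Ω i)] (i : ι) (f : (∀ i, Ω i) → ℝ) (c : ℝ)
    (h : ∀ ω : ∀ i, Ω i, av (fun t : Ω i => f (Function.update ω i t)) ≤ c) : av f ≤ c := by
  let e := (Equiv.piSplitAt i Ω).symm
  rw [← av_equiv e f, av_prod, av_comm]
  refine av_le_const fun r => ?_
  have t0 : Ω i := Classical.arbitrary _
  refine le_trans (le_of_eq ?_) (h (e (t0, r)))
  congr 1
  funext t
  congr 1
  funext j
  by_cases hj : j = i
  · subst hj
    simp [e, Equiv.piSplitAt]
  · simp [e, Equiv.piSplitAt, hj]

end Crest.Agent.R210
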