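import Crest.Agent.R210.Defs

/-! # Piece BUILD-A: lengths and formal identities of the words `word`, `fam q M p U v y` -/

set_option autoImplicit false
open Crest.GeometryTopology.EditDistance

namespace Crest.Agent.R210

variable {s : ℕ} {α : Type}

theorem mem_cols (p i : Fin s) : i ∈ cols p ↔ i ≠ p := by
  unfold cols
  simp

theorem cols_nodup (p : Fin s) : (cols p).Nodup := (List.nodup_finRange s).filter _

theorem cols_length (p : Fin s) : (cols p).length = s - 1 := by
  have h1 : (cols p).toFinset = Finset.univ.erase p := by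
    ext i
    simp [mem_cols]
  rw [← List.toFinset_card_of_nodup (cols_nodup p), h1, Finset.card_erase_of_mem (Finset.mem_univ p),
    Finset.card_univ, Fintype.card_fin]

theorem word_length (M : ℕ) (p : Fin s) (b : ℕ → Fin s → List α) (n : ℕ)
    (h : ∀ l i, (b l i).length = n) : (word M p b).length = M * (s - 1) * n := by
  unfold word
  rw [List.length_flatMap]
  have h1 : (fun l => ((cols p).flatMap fun i => b l i).length) = fun _ : ℕ => (s - 1) * n := by
    funext l
    rw [List.length_flatMap]
    simp only [h]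
    rw [List.map_const', List.sum_replicate, cols_length, smul_eq_mul]
  rw [h1, List.map_const', List.sum_replicate, List.length_range, smul_eq_mul, Nat.mul_assoc]

theorem fam_length (q : Fin s → ℕ) (M : ℕ) (p : Fin s) (U : ∀ i, ZMod (q i) → List α)
    (v : ∀ i, ZMod (q i)) (y : ℕ) (n : ℕ) (h : ∀ i b, (U i b).length = n) :
    (fam q M p U v y).length = M * (s - 1) * n := by
  unfold fam
  exact word_length M p _ n fun l i => h i _

theorem fam_flatMap {β : Type} (q : Fin s → ℕ) (M : ℕ) (p : Fin s)
    (U : ∀ i, ZMod (q i) → List α) (v : ∀ i, ZMod (q i)) (y : ℕ) (f : α → List β) :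
    (fam q M p U v y).flatMap f = fam q M p (fun i b => (U i b).flatMap f) v y := by
  unfold fam word
  rw [List.flatMap_assoc]
  simp only [List.flatMap_assoc]

/-- letters of the words -/
theorem mem_fam (q : Fin s → ℕ) (M : ℕ) (p : Fin s) (U : ∀ i, ZMod (q i) → List α)
    (v : ∀ i, ZMod (q i)) (y : ℕ) (t : α) (ht : t ∈ fam q M p U v y) :
    ∃ i b, t ∈ U i b := by
  unfold fam word at ht
  rw [List.mem_flatMap] at ht
  obtain ⟨l, _, hl⟩ := ht
  rw [List.mem_flatMap] at hl
  obtain ⟨i, _, hi⟩ := hl
  exact ⟨i, _, hi⟩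

namespace BuildAAux

theorem word_congr (M : ℕ) (p : Fin s) (b b' : ℕ → Fin s → List α)
    (h : ∀ l, ∀ i, i ≠ p → b l i = b' l i) : word M p b = word M p b' := by
  unfold word
  congr 1
  funext l
  apply List.flatMap_congr
  intro i hi
  exact h l i ((mem_cols p i).1 hi)

end BuildAAux

/-- `fam v (y + k) = fam (v + k/q_p) y` -/
theorem fam_shift (q : Fin s → ℕ) (M : ℕ) (p : Fin s) (U : ∀ i, ZMod (q i) → List α)
    (v : ∀ i, ZMod (q i)) (y k : ℕ) :
    fam q M p U v (y + k) =
      fam q M p U (v + fun i => (k : ZMod (q i)) * ((q p : ℕ) : ZMod (q i))⁻¹) y := by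
  unfold fam
  apply BuildAAux.word_congr
  intro l i _
  congr 1
  unfold idx
  rw [Pi.add_apply]
  push_cast
  ring

/-- shifting the phase of column `i` by `b` = relabelling the family `U i` by `b` -/
theorem fam_single (q : Fin s → ℕ) (M : ℕ) (p : Fin s) (U : ∀ i, ZMod (q i) → List α)
    (v : ∀ i, ZMod (q i)) (i : Fin s) (b : ZMod (q i)) (y : ℕ) :
    fam q M p U (v + Pi.single i b) y =
      fam q M p (Function.update U i (fun c => U i (c + b))) v y := by
  unfold fam
  apply BuildAAux.word_congr
  intro l j _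
  by_cases hj : j = i
  · subst hj
    rw [Function.update_self]
    congr 1
    unfold idx
    rw [Pi.add_apply, Pi.single_eq_same]
    ring
  · rw [Function.update_of_ne hj]
    congr 1
    unfold idx
    rw [Pi.add_apply, Pi.single_eq_of_ne hj, add_zero]

theorem fam_single_self (q : Fin s → ℕ) (M : ℕ) (p : Fin s) (U : ∀ i, ZMod (q i) → List α)
    (v : ∀ i, ZMod (q i)) (b : ZMod (q p)) (y : ℕ) :
    fam q M p U (v + Pi.single p b) y = fam q M p U v y := by
  unfold fam
  apply BuildAAux.word_congr
  intro l j hj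
  congr 1
  unfold idx
  rw [Pi.add_apply, Pi.single_eq_of_ne hj, add_zero]

end Crest.Agent.R210
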