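import Crest.Agent.R210.Defs

/-! # Piece ED: elementary facts on the edit distance

`editDist` is the graph distance in `editGraph`.  The graph is connected (delete all symbols), so
`SimpleGraph.Connected.dist_triangle` etc. are available.  Appending a common prefix/suffix maps
walks to walks. -/

set_option autoImplicit false
open Crest.GeometryTopology.EditDistance

namespace Crest.Agent.R210

variable {α : Type}

namespace EDAux

theorem adj_iff (u v : List α) : (editGraph α).Adj u v ↔
    u ≠ v ∧ ((IsInsertion u v ∨ IsSubstitution u v) ∨ (IsInsertion v u ∨ IsSubstitution v u)) := by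
  unfold editGraph
  rw [SimpleGraph.fromRel_adj]

theorem adj_cons (a : α) (l : List α) : (editGraph α).Adj (a :: l) l := by
  rw [adj_iff]
  refine ⟨?_, Or.inr (Or.inl ⟨[], l, a, rfl, rfl⟩)⟩
  intro h
  have := congrArg List.length h
  simp at this

theorem reach_nil (x : List α) : (editGraph α).Reachable x [] := by
  induction x with
  | nil => exact SimpleGraph.Reachable.refl _
  | cons a l ih => exact (adj_cons a l).reachable.trans ih

theorem step_append (b : List α) {u v : List α}
    (h : IsInsertion u v ∨ IsSubstitution u v) :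
    IsInsertion (u ++ b) (v ++ b) ∨ IsSubstitution (u ++ b) (v ++ b) := by
  rcases h with ⟨l, r, a, h1, h2⟩ | ⟨l, r, a, c, hne, h1, h2⟩
  · left
    exact ⟨l, r ++ b, a, by rw [h1, List.append_assoc], by rw [h2]; simp⟩
  · right
    exact ⟨l, r ++ b, a, c, hne, by rw [h1]; simp, by rw [h2]; simp⟩

theorem append_step (b : List α) {u v : List α}
    (h : IsInsertion u v ∨ IsSubstitution u v) :
    IsInsertion (b ++ u) (b ++ v) ∨ IsSubstitution (b ++ u) (b ++ v) := by
  rcases h with ⟨l, r, a, h1, h2⟩ | ⟨l, r, a, c, hne, h1, h2⟩
  · left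
    exact ⟨b ++ l, r, a, by rw [h1, List.append_assoc], by rw [h2]; simp⟩
  · right
    exact ⟨b ++ l, r, a, c, hne, by rw [h1]; simp, by rw [h2]; simp⟩

/-- appending a suffix is a homomorphism of the edit graph -/
def homRight (b : List α) : editGraph α →g editGraph α where
  toFun u := u ++ b
  map_rel' := by
    intro u v h
    rw [adj_iff] at h ⊢
    refine ⟨fun he => h.1 (List.append_cancel_right he), ?_⟩
    rcases h.2 with h2 | h2
    · exact Or.inl (step_append b h2)
    · exact Or.inr (step_append b h2)

/-- adding a prefix is a homomorphism of the edit graph -/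
def homLeft (b : List α) : editGraph α →g editGraph α where
  toFun u := b ++ u
  map_rel' := by
    intro u v h
    rw [adj_iff] at h ⊢
    refine ⟨fun he => h.1 (List.append_cancel_left he), ?_⟩
    rcases h.2 with h2 | h2
    · exact Or.inl (append_step b h2)
    · exact Or.inr (append_step b h2)

theorem drop_one (l r z' : List α) (b : α) (h : z'.Sublist (l ++ b :: r)) :
    ∃ z : List α, z.Sublist z' ∧ z.Sublist (l ++ r) ∧ z'.length ≤ z.length + 1 := by
  rw [List.sublist_append_iff] at h
  obtain ⟨z1, z2, rfl, h1, h2⟩ := h
  rw [List.sublist_cons_iff] at h2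
  rcases h2 with h2 | ⟨z3, rfl, h3⟩
  · exact ⟨z1 ++ z2, List.Sublist.refl _, h1.append h2, Nat.le_succ _⟩
  · refine ⟨z1 ++ z3, ?_, h1.append h3, ?_⟩
    · exact (List.Sublist.refl z1).append (List.sublist_cons_self _ _)
    · simp [Nat.add_assoc]

theorem sub_cons (l r : List α) (b : α) : (l ++ r).Sublist (l ++ b :: r) :=
  (List.Sublist.refl l).append (List.sublist_cons_self _ _)

theorem adj_step (x x' : List α) (h : (editGraph α).Adj x x') (z' : List α)
    (hz : z'.Sublist x') (k : ℕ) (hk : x'.length ≤ z'.length + k) :
    ∃ z : List α, z.Sublist z' ∧ z.Sublist x ∧ x.length ≤ z.length + (k + 1) := by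
  rw [adj_iff] at h
  rcases h.2 with (⟨l, r, a, h1, h2⟩ | ⟨l, r, a, c, hne, h1, h2⟩) |
    (⟨l, r, a, h1, h2⟩ | ⟨l, r, a, c, hne, h1, h2⟩)
  · subst h1 h2
    obtain ⟨z, hz1, hz2, hz3⟩ := drop_one l r z' a hz
    refine ⟨z, hz1, hz2, ?_⟩
    simp only [List.length_append, List.length_cons] at *
    omega
  · subst h1 h2
    obtain ⟨z, hz1, hz2, hz3⟩ := drop_one l r z' c hz
    refine ⟨z, hz1, hz2.trans (sub_cons l r a), ?_⟩
    simp only [List.length_append, List.length_cons] at *
    omega
  · subst h1 h2
    refine ⟨z', List.Sublist.refl _, hz.trans (sub_cons l r a), ?_⟩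
    simp only [List.length_append, List.length_cons] at *
    omega
  · subst h1 h2
    obtain ⟨z, hz1, hz2, hz3⟩ := drop_one l r z' a hz
    refine ⟨z, hz1, hz2.trans (sub_cons l r c), ?_⟩
    simp only [List.length_append, List.length_cons] at *
    omega

theorem walk_sublist {x y : List α} (p : (editGraph α).Walk x y) :
    ∃ z : List α, z.Sublist x ∧ z.Sublist y ∧ x.length ≤ z.length + p.length := by
  induction p with
  | nil => exact ⟨_, List.Sublist.refl _, List.Sublist.refl _, by simp⟩
  | cons h p ih =>
    obtain ⟨z', hz1, hz2, hz3⟩ := ih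
    obtain ⟨z, h1, h2, h3⟩ := adj_step _ _ h z' hz1 _ hz3
    exact ⟨z, h2, h1.trans hz2, by simpa using h3⟩

end EDAux

open EDAux

theorem editGraph_connected (α : Type) : (editGraph α).Connected := by
  have : Nonempty (List α) := ⟨[]⟩
  exact ⟨fun u v => (reach_nil u).trans (reach_nil v).symm⟩

theorem ed_self (x : List α) : editDist x x = 0 := by
  unfold editDist
  exact SimpleGraph.dist_self

theorem ed_comm (x y : List α) : editDist x y = editDist y x := by
  unfold editDist
  exact SimpleGraph.dist_comm

theorem ed_tri (x y z : List α) : editDist x z ≤ editDist x y + editDist y z := by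
  unfold editDist
  exact (editGraph_connected α).dist_triangle

theorem ed_nil (x : List α) : editDist x [] ≤ x.length := by
  induction x with
  | nil => rw [ed_self]; exact Nat.zero_le _
  | cons a l ih =>
    have h1 : editDist (a :: l) l = 1 := by
      unfold editDist
      exact SimpleGraph.dist_eq_one_iff_adj.2 (adj_cons a l)
    have h2 := ed_tri (a :: l) l []
    rw [h1] at h2
    rw [List.length_cons]
    omega

theorem ed_nil' (x : List α) : editDist [] x ≤ x.length := by
  rw [ed_comm]
  exact ed_nil x

theorem ed_le_add (x y : List α) : editDist x y ≤ x.length + y.length :=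
  (ed_tri x [] y).trans (Nat.add_le_add (ed_nil x) (ed_nil' y))

namespace EDAux

theorem dist_hom (f : editGraph α →g editGraph α) (u v : List α) :
    editDist (f u) (f v) ≤ editDist u v := by
  unfold editDist
  obtain ⟨p, hp⟩ := (editGraph_connected α).exists_walk_length_eq_dist u v
  rw [← hp, ← SimpleGraph.Walk.length_map f p]
  exact SimpleGraph.dist_le _

end EDAux

theorem ed_append (a b c d : List α) :
    editDist (a ++ b) (c ++ d) ≤ editDist a c + editDist b d :=
  (ed_tri (a ++ b) (c ++ b) (c ++ d)).trans
    (Nat.add_le_add (dist_hom (homRight b) a c) (dist_hom (homLeft c) b d))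

theorem ed_flatMap {β : Type} (l : List β) (f g : β → List α) :
    editDist (l.flatMap f) (l.flatMap g) ≤ (l.map fun x => editDist (f x) (g x)).sum := by
  induction l with
  | nil => simp [ed_self]
  | cons a l ih =>
    rw [List.flatMap_cons, List.flatMap_cons, List.map_cons, List.sum_cons]
    exact (ed_append _ _ _ _).trans (Nat.add_le_add_left ih _)

/-- common subsequences: `|x| - LCS(x,y) ≤ ed(x,y)`.  Induction along a shortest walk from `x` to
`y`: one edit step destroys at most one letter of a given subsequence. -/
theorem ed_sublist (x y : List α) :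
    ∃ z : List α, z.Sublist x ∧ z.Sublist y ∧ x.length ≤ z.length + editDist x y := by
  obtain ⟨p, hp⟩ := (editGraph_connected α).exists_walk_length_eq_dist x y
  obtain ⟨z, h1, h2, h3⟩ := walk_sublist p
  refine ⟨z, h1, h2, ?_⟩
  unfold editDist
  rw [← hp]
  exact h3

end Crest.Agent.R210
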