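import Crest.Agent.R210.Defs
import Crest.Agent.R210.EDBasic
import Crest.Agent.R210.BuildA

/-! # Piece BUILD-B: edit distance under shifts by rows

Suggested: write `fam … v y = (List.range M).flatMap row`, `fam … (v + r) y = (List.range M).flatMap (fun l => row (l + r))`
where `row l : List α` has length `(s-1) n`; general lemma
`editDist ((range M).flatMap row) ((range M).flatMap (fun l => row (l+r))) ≤ 2 r c` if all rows have length `c`, `r ≤ M`
(`= A ++ B` and `B ++ C` with `|A| = |C| = r c`; `ed_append`, `ed_nil`, `ed_nil'`). -/

set_option autoImplicit false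
open Crest.GeometryTopology.EditDistance

namespace Crest.Agent.R210

variable {s : ℕ} {α : Type}

namespace BuildBAux

theorem flatMap_length (r : ℕ) (row : ℕ → List α) (c : ℕ) (h : ∀ l, (row l).length = c) :
    ((List.range r).flatMap row).length = r * c := by
  rw [List.length_flatMap]
  simp only [h]
  rw [List.map_const', List.sum_replicate, List.length_range, smul_eq_mul]

theorem shift_rows (M r : ℕ) (hr : r ≤ M) (row : ℕ → List α) (c : ℕ)
    (h : ∀ l, (row l).length = c) :
    editDist ((List.range M).flatMap row) ((List.range M).flatMap fun l => row (l + r)) ≤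
      2 * r * c := by
  obtain ⟨k, rfl⟩ := Nat.exists_eq_add_of_le hr
  have h1 : (List.range (r + k)).flatMap row =
      (List.range r).flatMap row ++ (List.range k).flatMap fun l => row (l + r) := by
    rw [List.range_add, List.flatMap_append, List.flatMap_map]
    congr 2
    funext l
    rw [Nat.add_comm]
  have h2 : (List.range (r + k)).flatMap (fun l => row (l + r)) =
      (List.range k).flatMap (fun l => row (l + r)) ++
        (List.range r).flatMap fun l => row (k + l + r) := by
    rw [Nat.add_comm r k, List.range_add, List.flatMap_append, List.flatMap_map]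
  rw [h1, h2]
  set A := (List.range r).flatMap row
  set B := (List.range k).flatMap fun l => row (l + r)
  set C := (List.range r).flatMap fun l => row (k + l + r)
  have hA : A.length = r * c := flatMap_length r row c h
  have hC : C.length = r * c := flatMap_length r _ c fun l => h _
  have e1 : editDist (A ++ B) ([] ++ B) ≤ editDist A [] + editDist B B := ed_append _ _ _ _
  have e2 : editDist (B ++ []) (B ++ C) ≤ editDist B B + editDist [] C := ed_append _ _ _ _
  have e3 := ed_nil A
  have e4 := ed_nil' C
  have e5 := ed_tri (A ++ B) B (B ++ C)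
  rw [List.nil_append] at e1
  rw [List.append_nil] at e2
  rw [ed_self] at e1 e2
  have e6 : 2 * r * c = r * c + r * c := by ring
  omega

end BuildBAux

/-- rotation by `r ≤ M` rows: `fam (v + r) = (rows r..M-1+r)`; delete `r` rows, append `r` rows. -/
theorem fam_rot (q : Fin s → ℕ) (M : ℕ) (p : Fin s) (U : ∀ i, ZMod (q i) → List α)
    (v : ∀ i, ZMod (q i)) (y : ℕ) (n : ℕ) (h : ∀ i b, (U i b).length = n) (r : ℕ) (hr : r ≤ M) :
    editDist (fam q M p U v y) (fam q M p U (v + fun i => (r : ZMod (q i))) y) ≤
      2 * r * (s - 1) * n := by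
  have key := BuildBAux.shift_rows M r hr
    (fun l => (cols p).flatMap fun i => U i (idx q p v y l i)) ((s - 1) * n) (by
      intro l
      rw [List.length_flatMap]
      simp only [h]
      rw [List.map_const', List.sum_replicate, cols_length, smul_eq_mul])
  have e1 : fam q M p U (v + fun i => (r : ZMod (q i))) y =
      (List.range M).flatMap fun l => (cols p).flatMap fun i => U i (idx q p v y (l + r) i) := by
    show fam q M p U (v + fun i => (r : ZMod (q i))) y =
      word M p fun l i => U i (idx q p v y (l + r) i)
    unfold fam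
    apply BuildAAux.word_congr
    intro l i _
    congr 1
    unfold idx
    rw [Pi.add_apply]
    push_cast
    ring
  rw [e1]
  unfold fam word
  calc _ ≤ 2 * r * ((s - 1) * n) := key
    _ = 2 * r * (s - 1) * n := by ring

/-- `y ↦ y + q_p` shifts by one row (`q_p * q_p⁻¹ = 1` in `ZMod (q i)`, `i ≠ p`,
`ZMod.coe_mul_inv_eq_one`). -/
theorem fam_wrap (q : Fin s → ℕ) (hcop : Pairwise fun i j => Nat.Coprime (q i) (q j)) (M : ℕ)
    (hM : 0 < M) (p : Fin s) (U : ∀ i, ZMod (q i) → List α)
    (v : ∀ i, ZMod (q i)) (y : ℕ) (n : ℕ) (h : ∀ i b, (U i b).length = n) :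
    editDist (fam q M p U v (y + q p)) (fam q M p U v y) ≤ 2 * (s - 1) * n := by
  have e1 : fam q M p U v (y + q p) = fam q M p U (v + fun i => ((1 : ℕ) : ZMod (q i))) y := by
    unfold fam
    apply BuildAAux.word_congr
    intro l i hi
    congr 1
    unfold idx
    rw [Pi.add_apply]
    have h1 : ((q p : ℕ) : ZMod (q i)) * ((q p : ℕ) : ZMod (q i))⁻¹ = 1 :=
      ZMod.coe_mul_inv_eq_one _ (hcop (Ne.symm hi))
    push_cast
    rw [add_mul, h1]
    ring
  rw [e1, ed_comm]
  have := fam_rot q M p U v y n h 1 hM
  simpa using this

end Crest.Agent.R210
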