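import Crest.Agent.R210.Defs
import Crest.Agent.R210.EDBasic
import Crest.Agent.R210.BuildA

/-! # Piece BUILD-C: changing only the family in column `i`

`ed_flatMap` twice: `editDist ≤ ∑_{l<M} ∑_{j ∈ cols p} editDist(block, block')`, only `j = i` contributes (blocks equal otherwise,
`ed_self`), `≤ ∑_{l<M} editDist (W (idx l)) (W' (idx l))` with `idx l = const + l : ZMod (q i)`, and every `c : ZMod (q i)` has at most
`M / q_i + 1` indices `l < M` with `const + l = c` (e.g. `Nat.count_modEq_card`, or split `range M` into blocks of `q i`). -/

set_option autoImplicit false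
open Crest.GeometryTopology.EditDistance

namespace Crest.Agent.R210

variable {s : ℕ} {α : Type}

namespace BuildCAux

theorem count_le (k : ℕ) [NeZero k] (M : ℕ) (a c : ZMod k) :
    ((Finset.range M).filter fun l : ℕ => a + (l : ZMod k) = c).card ≤ M / k + 1 := by
  classical
  have h1 : ((Finset.range M).filter fun l : ℕ => a + (l : ZMod k) = c) =
      (Finset.range M).filter fun l : ℕ => l ≡ (c - a).val [MOD k] := by
    apply Finset.filter_congr
    intro l _
    rw [← ZMod.natCast_eq_natCast_iff, ZMod.natCast_zmod_val]
    constructor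
    · intro h
      rw [← h]
      ring
    · intro h
      rw [h]
      ring
  rw [h1, ← Nat.count_eq_card_filter_range, Nat.count_modEq_card _ (NeZero.pos k)]
  split_ifs <;> omega

theorem sum_le (k : ℕ) [NeZero k] (M : ℕ) (a : ZMod k) (D : ZMod k → ℕ) :
    ∑ l ∈ Finset.range M, D (a + (l : ZMod k)) ≤ (M / k + 1) * ∑ c, D c := by
  classical
  calc ∑ l ∈ Finset.range M, D (a + (l : ZMod k))
      = ∑ l ∈ Finset.range M, ∑ c, if a + (l : ZMod k) = c then D c else 0 := by
        refine Finset.sum_congr rfl fun l _ => ?_
        rw [Finset.sum_ite_eq]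
        simp
    _ = ∑ c, ∑ l ∈ Finset.range M, if a + (l : ZMod k) = c then D c else 0 := Finset.sum_comm
    _ ≤ ∑ c, (M / k + 1) * D c := by
        refine Finset.sum_le_sum fun c _ => ?_
        rw [← Finset.sum_filter, Finset.sum_const, smul_eq_mul]
        exact Nat.mul_le_mul_right _ (count_le k M a c)
    _ = (M / k + 1) * ∑ c, D c := by rw [Finset.mul_sum]

end BuildCAux

/-- changing only the family in column `i`; in each word of the new family every `U i c` occurs at most
`M / q_i + 1` times (`l < M` with `l ≡ const mod q_i`). -/
theorem fam_col (q : Fin s → ℕ) [∀ i, NeZero (q i)] (M : ℕ) (p : Fin s)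
    (U : ∀ i, ZMod (q i) → List α) (v : ∀ i, ZMod (q i)) (i : Fin s)
    (W W' : ZMod (q i) → List α) (y : ℕ) :
    editDist (fam q M p (Function.update U i W) v y) (fam q M p (Function.update U i W') v y) ≤
      (M / q i + 1) * ∑ c, editDist (W c) (W' c) := by
  classical
  set a : ZMod (q i) := v i + (y : ZMod (q i)) * ((q p : ℕ) : ZMod (q i))⁻¹ with ha
  have hrow : ∀ l : ℕ, editDist
      ((cols p).flatMap fun j => Function.update U i W j (idx q p v y l j))
      ((cols p).flatMap fun j => Function.update U i W' j (idx q p v y l j)) ≤
      editDist (W (a + (l : ZMod (q i)))) (W' (a + (l : ZMod (q i)))) := by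
    intro l
    refine (ed_flatMap _ _ _).trans ?_
    rw [← List.sum_toFinset _ (cols_nodup p)]
    have h1 : ∀ j ∈ (cols p).toFinset,
        editDist (Function.update U i W j (idx q p v y l j))
          (Function.update U i W' j (idx q p v y l j)) =
        if j = i then editDist (W (a + (l : ZMod (q i)))) (W' (a + (l : ZMod (q i)))) else 0 := by
      intro j _
      by_cases hj : j = i
      · subst hj
        rw [Function.update_self, Function.update_self, if_pos rfl]
        rfl
      · rw [Function.update_of_ne hj, Function.update_of_ne hj, if_neg hj, ed_self]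
    rw [Finset.sum_congr rfl h1, Finset.sum_ite_eq']
    split_ifs
    · exact le_rfl
    · exact Nat.zero_le _
  unfold fam word
  refine (ed_flatMap _ _ _).trans ?_
  rw [← List.sum_toFinset _ (List.nodup_range), List.toFinset_range]
  refine (Finset.sum_le_sum fun l _ => hrow l).trans ?_
  exact BuildCAux.sum_le (q i) M a fun c => editDist (W c) (W' c)

end Crest.Agent.R210
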