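import Crest.Agent.R210.Defs
import Crest.Agent.R210.Av

/-! # Piece FOUR-A: the inequality for one character

`S = {i | ∃ b, χ (Pi.single i b) ≠ 1}` (support).
* `1 - re ≥ 0` always (`‖χ x‖ = 1`), `1 - (χ θ).re ≤ 2`.  If `S = ∅` then `χ θ = 1` (every `θ` is `∑ i, Pi.single i (θ i)`).
* `av_b (1 - (χ (Pi.single i b)).re)` is `1` for `i ∈ S` (`∑_b χ (single i b) = 0`: nontrivial character of `ZMod (q i)`,
  `AddChar.sum_eq_ite`), `0` for `i ∉ S`.  So if `g ≤ |S|` the second term is `≥ 2`.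
* if `0 < |S| < g`: `w = χ (1,…,1)`, `χ (r,…,r) = w ^ r`, `Q = ∏ i ∈ S, q i`: `w ^ Q = 1` (`Q • single i 1 = 0` for `i ∈ S`),
  `w ≠ 1` (otherwise `1 = w ^ k` for `k = ∏ j ∈ S \ {i}, q j`, `= χ (single i k)`, and `k` is a unit mod `q i`
  (pairwise coprime), so `χ (single i b) = 1` for all `b`).  So `∑_{r<R} w^r` is a sum of at most `Q` terms of
  norm one plus full periods (`= 0`), norm `≤ Q ≤ R/2`, and the first term is `≥ (4/R) (R - R/2) = 2`.
  (or: `(w-1) ∑ w^r = w^R - 1`, periodicity: `∑_{r<R} w^r = ∑_{r<R % Q} w^r`.) -/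

set_option autoImplicit false

namespace Crest.Agent.R210

namespace CharIneq_aux

variable {s : ℕ} {q : Fin s → ℕ}

/-- the `i`-th component of a character -/
noncomputable def comp (χ : AddChar (∀ i, ZMod (q i)) ℂ) (i : Fin s) : AddChar (ZMod (q i)) ℂ :=
  χ.compAddMonoidHom (AddMonoidHom.single (fun i => ZMod (q i)) i)

lemma comp_apply (χ : AddChar (∀ i, ZMod (q i)) ℂ) (i : Fin s) (b : ZMod (q i)) :
    comp χ i b = χ (Pi.single i b) := rfl

lemma prod_comp (χ : AddChar (∀ i, ZMod (q i)) ℂ) (x : ∀ i, ZMod (q i)) :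
    χ x = ∏ i, comp χ i (x i) := by
  have h1 : ∀ (S : Finset (Fin s)), χ (∑ i ∈ S, Pi.single i (x i)) = ∏ i ∈ S, comp χ i (x i) := by
    intro S
    classical
    induction S using Finset.induction_on with
    | empty => simp
    | insert a S ha ih =>
      rw [Finset.sum_insert ha, Finset.prod_insert ha, AddChar.map_add_eq_mul, ih, comp_apply]
  have h2 := h1 Finset.univ
  rwa [Finset.univ_sum_single] at h2

lemma re_le_one [∀ i, NeZero (q i)] (χ : AddChar (∀ i, ZMod (q i)) ℂ) (x : ∀ i, ZMod (q i)) :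
    (χ x).re ≤ 1 := by
  have h := AddChar.norm_apply χ x
  exact (Complex.re_le_norm _).trans h.le

lemma neg_one_le_re [∀ i, NeZero (q i)] (χ : AddChar (∀ i, ZMod (q i)) ℂ)
    (x : ∀ i, ZMod (q i)) : -1 ≤ (χ x).re := by
  have h := AddChar.norm_apply χ x
  have h2 := Complex.abs_re_le_norm (χ x)
  rw [h] at h2
  exact (abs_le.1 h2).1

/-- averages over one coordinate -/
lemma av_comp [∀ i, NeZero (q i)] (χ : AddChar (∀ i, ZMod (q i)) ℂ) (i : Fin s) :
    av (fun b : ZMod (q i) => 1 - (χ (Pi.single i b)).re) = if comp χ i = 0 then 0 else 1 := by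
  unfold av
  have hcard : (Fintype.card (ZMod (q i)) : ℝ) ≠ 0 := by
    exact_mod_cast Fintype.card_ne_zero
  have h1 : ∑ b : ZMod (q i), (1 - (χ (Pi.single i b)).re) =
      (Fintype.card (ZMod (q i)) : ℝ) - (∑ b : ZMod (q i), comp χ i b).re := by
    rw [Finset.sum_sub_distrib, Complex.re_sum]
    simp only [comp_apply]
    simp
  rw [h1, AddChar.sum_eq_ite]
  split_ifs with h
  · simp
  · simp only [Complex.zero_re, sub_zero]
    exact div_self hcard

/-- the diagonal -/
lemma diag_pow (χ : AddChar (∀ i, ZMod (q i)) ℂ) (r : ℕ) :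
    χ (fun i => (r : ZMod (q i))) = χ (fun _ => 1) ^ r := by
  rw [← AddChar.map_nsmul_eq_pow]
  congr 1
  funext i
  simp

lemma geom_bound {w : ℂ} (hw : w ≠ 1) (hn : ‖w‖ = 1) {Q : ℕ} (hQ : 0 < Q) (hwQ : w ^ Q = 1)
    (R : ℕ) : ‖∑ r ∈ Finset.range R, w ^ r‖ ≤ Q := by
  have h1 : ∑ r ∈ Finset.range R, w ^ r = ∑ r ∈ Finset.range (R % Q), w ^ r := by
    have h2 : w ^ R = w ^ (R % Q) := by
      conv_lhs => rw [← Nat.div_add_mod R Q, pow_add, pow_mul, hwQ, one_pow, one_mul]
    have h3 := mul_geom_sum w R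
    have h4 := mul_geom_sum w (R % Q)
    rw [h2, ← h4] at h3
    exact mul_left_cancel₀ (sub_ne_zero.2 hw) h3
  rw [h1]
  refine (norm_sum_le _ _).trans ?_
  simp only [norm_pow, hn, one_pow, Finset.sum_const, Finset.card_range, nsmul_eq_mul, mul_one]
  exact_mod_cast (Nat.mod_lt R hQ).le

end CharIneq_aux

open CharIneq_aux

theorem char_ineq {s : ℕ} (q : Fin s → ℕ) [∀ i, NeZero (q i)]
    (hcop : Pairwise fun i j => Nat.Coprime (q i) (q j)) (g R : ℕ) (hg : 0 < g) (hR0 : 0 < R)
    (hR : ∀ A : Finset (Fin s), A.card < g → 2 * ∏ i ∈ A, q i ≤ R)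
    (χ : AddChar (∀ i, ZMod (q i)) ℂ) (θ : ∀ i, ZMod (q i)) :
    1 - (χ θ).re ≤
      4 / (R : ℝ) * ∑ r ∈ Finset.range R, (1 - (χ (fun i => (r : ZMod (q i)))).re) +
      2 / (g : ℝ) * ∑ i, av (fun b : ZMod (q i) => 1 - (χ (Pi.single i b)).re) := by
  classical
  have hgR : (0:ℝ) < g := by exact_mod_cast hg
  have hRR : (0:ℝ) < R := by exact_mod_cast hR0
  set S : Finset (Fin s) := Finset.univ.filter fun i => comp χ i ≠ 0 with hS
  -- the second term
  have h2 : ∑ i, av (fun b : ZMod (q i) => 1 - (χ (Pi.single i b)).re) = (S.card : ℝ) := by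
    simp only [av_comp]
    rw [hS, Finset.card_filter]
    push_cast
    refine Finset.sum_congr rfl fun i _ => ?_
    by_cases h : comp χ i = 0 <;> simp [h]
  have h1 : 0 ≤ ∑ r ∈ Finset.range R, (1 - (χ (fun i => (r : ZMod (q i)))).re) :=
    Finset.sum_nonneg fun r _ => by linarith [re_le_one χ (fun i => (r : ZMod (q i)))]
  have hθ : 1 - (χ θ).re ≤ 2 := by linarith [neg_one_le_re χ θ]
  have hA : 0 ≤ 4 / (R : ℝ) * ∑ r ∈ Finset.range R, (1 - (χ (fun i => (r : ZMod (q i)))).re) := by
    positivity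
  rw [h2]
  have hB : 0 ≤ 2 / (g : ℝ) * (S.card : ℝ) := by positivity
  rcases S.eq_empty_or_nonempty with hSe | hSn
  · -- trivial character
    have h3 : χ θ = 1 := by
      rw [prod_comp]
      refine Finset.prod_eq_one fun i _ => ?_
      have h4 : comp χ i = 0 := by
        by_contra hne
        have : i ∈ S := by simp [hS, hne]
        rw [hSe] at this
        exact absurd this (Finset.notMem_empty i)
      rw [h4]
      simp
    rw [h3, Complex.one_re, sub_self]
    linarith
  by_cases hcard : g ≤ S.card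
  · -- large support
    have h3 : (2:ℝ) ≤ 2 / (g : ℝ) * (S.card : ℝ) := by
      rw [div_mul_eq_mul_div, le_div_iff₀ hgR]
      have : (g:ℝ) ≤ (S.card : ℝ) := by exact_mod_cast hcard
      linarith
    linarith
  · -- small support
    push Not at hcard
    set Q : ℕ := ∏ i ∈ S, q i with hQ
    have hQ2 : 2 * Q ≤ R := hR S hcard
    have hQpos : 0 < Q := Finset.prod_pos fun i _ => Nat.pos_of_ne_zero (NeZero.ne (q i))
    set w : ℂ := χ (fun _ => 1) with hw
    have hwn : ‖w‖ = 1 := AddChar.norm_apply χ _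
    have hnS : ∀ i, i ∉ S → comp χ i = 0 := fun i hi => by
      by_contra hne
      exact hi (by simp [hS, hne])
    have hdvd : ∀ (T : Finset (Fin s)) (i : Fin s), i ∈ T →
        (((∏ j ∈ T, q j : ℕ)) : ZMod (q i)) = 0 := fun T i hi =>
      (ZMod.natCast_eq_zero_iff _ _).2 (Finset.dvd_prod_of_mem q hi)
    have hwQ : w ^ Q = 1 := by
      rw [hw, ← diag_pow, prod_comp]
      refine Finset.prod_eq_one fun i _ => ?_
      by_cases hi : i ∈ S
      · rw [hdvd S i hi]
        exact AddChar.map_zero_eq_one _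
      · rw [hnS i hi]
        simp
    have hw1 : w ≠ 1 := by
      intro hw1
      obtain ⟨i, hi⟩ := hSn
      set k : ℕ := ∏ j ∈ S.erase i, q j with hk
      have hcopk : Nat.Coprime k (q i) := by
        refine Nat.Coprime.prod_left fun j hj => ?_
        exact hcop (Finset.ne_of_mem_erase hj)
      have h3 : comp χ i (k : ZMod (q i)) = 1 := by
        have h4 : w ^ k = 1 := by rw [hw1, one_pow]
        rw [hw, ← diag_pow, prod_comp, ← Finset.mul_prod_erase _ _ (Finset.mem_univ i)] at h4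
        have h5 : ∏ j ∈ Finset.univ.erase i, comp χ j (k : ZMod (q j)) = 1 := by
          refine Finset.prod_eq_one fun j hj => ?_
          by_cases hjS : j ∈ S
          · rw [hk, hdvd (S.erase i) j (Finset.mem_erase.2 ⟨Finset.ne_of_mem_erase hj, hjS⟩)]
            exact AddChar.map_zero_eq_one _
          · rw [hnS j hjS]
            simp
        rwa [h5, mul_one] at h4
      have h6 : comp χ i = 0 := by
        rw [AddChar.eq_zero_iff]
        intro b
        have hu : (k : ZMod (q i)) * (k : ZMod (q i))⁻¹ = 1 := ZMod.coe_mul_inv_eq_one k hcopk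
        have h7 : b = (b * (k : ZMod (q i))⁻¹).val • (k : ZMod (q i)) := by
          rw [nsmul_eq_mul, ZMod.natCast_zmod_val, mul_assoc, mul_comm _ (k : ZMod (q i)), hu,
            mul_one]
        rw [h7, AddChar.map_nsmul_eq_pow, h3, one_pow]
      have : comp χ i ≠ 0 := by
        have := hi
        simp only [hS, Finset.mem_filter, Finset.mem_univ, true_and] at this
        exact this
      exact this h6
    have hgeo := geom_bound hw1 hwn hQpos hwQ R
    have h3 : (R : ℝ) / 2 ≤ ∑ r ∈ Finset.range R, (1 - (χ (fun i => (r : ZMod (q i)))).re) := by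
      have h4 : ∑ r ∈ Finset.range R, (1 - (χ (fun i => (r : ZMod (q i)))).re) =
          R - (∑ r ∈ Finset.range R, w ^ r).re := by
        rw [Finset.sum_sub_distrib, Complex.re_sum]
        simp only [diag_pow]
        simp [hw]
      rw [h4]
      have h5 := (Complex.re_le_norm (∑ r ∈ Finset.range R, w ^ r)).trans hgeo
      have h6 : (2:ℝ) * Q ≤ R := by exact_mod_cast hQ2
      linarith
    have h7 : (2:ℝ) ≤ 4 / (R : ℝ) *
        ∑ r ∈ Finset.range R, (1 - (χ (fun i => (r : ZMod (q i)))).re) := by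
      rw [div_mul_eq_mul_div, le_div_iff₀ hRR]
      linarith
    linarith

end Crest.Agent.R210
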