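import Crest.Agent.R210.Defs
import Crest.Agent.R210.EDBasic

/-! # Piece CODE: the comma-free binary code

`code m φ t = 11 0b₁ 0b₂ … 0b_m`.  COMMA-FREE: in `code t ++ code t'` a window of length `2+2m` at offset `0 < o < 2+2m` is
never a code word: a code word starts with `1 1 0` (or `1 1` if `m = 0`; treat `m = 0` separately: then `φ` is
constant, so all letters are equal), but `11` at offset `o` occurs only for `o = 2m+1` with `b_m = 1`,
and then the third symbol is `1`.

code_lower: let `Z` be a common subsequence of `X = x.flatMap code`, `Y = y.flatMap code` with `|X| ≤ |Z| + e`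
(`ed_sublist`).  Split `X` into code words: `Z = ∏ Z_k`, `Z_k <+ code x_k`, `Y = ∏ Y_k`, `Z_k <+ Y_k`.
`∑ (|code x_k| - |Z_k|) + (|Y_k| - |Z_k|) = 2 (|X| - |Z|) ≤ 2 e` (as `|X| = |Y|`).  So for all but `2e` of the `k`:
`Y_k = Z_k = code x_k`, an infix of `Y`, so by comma-freeness it is aligned with a letter `y_{k'}` of `y`, `φ x_k = φ y_{k'}`, so
`x_k = y_{k'}`.  These `k'` are strictly increasing, which gives the common subsequence `z` of `x`, `y`
with `|x| ≤ |z| + 2e`.

(Suggested induction, on `x`: for every suffix `Y'` of `Y = y.flatMap code`, write `Y' = r ++ y'.flatMap code` with `y'` a suffix of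
`y` and `|r| < 2+2m` (`r` a suffix of a code word); if `Z <+ x.flatMap code`, `Z <+ Y'` then there is `z <+ x`, `z <+ y'` with
`|x| + 2|Z| ≤ |z| + |x.flatMap code| + |Y'|`: each unit of cost pays for one lost letter.) -/

set_option autoImplicit false
open Crest.GeometryTopology.EditDistance

namespace Crest.Agent.R210

theorem bits_length (l : List Bool) : (l.flatMap (fun b => [false, b])).length = 2 * l.length := by
  induction l with
  | nil => rfl
  | cons a l ih => simp only [List.flatMap_cons, List.length_append, ih, List.length_cons,
      List.length_nil]; ring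

theorem code_length (m : ℕ) (φ : List ℕ → Fin m → Bool) (t : List ℕ) :
    (code m φ t).length = 2 + 2 * m := by
  simp only [code, List.length_cons, bits_length, List.length_ofFn]; ring

theorem code_get0 (m : ℕ) (φ : List ℕ → Fin m → Bool) (t : List ℕ) :
    (code m φ t)[0]? = some true := by simp [code]

theorem code_get1 (m : ℕ) (φ : List ℕ → Fin m → Bool) (t : List ℕ) :
    (code m φ t)[1]? = some true := by simp [code]

theorem bits_get (l : List Bool) : ∀ i, i < l.length →
    (l.flatMap (fun b => [false, b]))[2 * i]? = some false := by
  induction l with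
  | nil => intro i hi; simp at hi
  | cons a l ih =>
    intro i hi
    rcases i with _ | i
    · simp
    · have h := ih i (by simpa using hi)
      have e : 2 * (i + 1) = 2 * i + 1 + 1 := by ring
      rw [e, List.flatMap_cons]
      simpa using h

theorem code_get2 (m : ℕ) (φ : List ℕ → Fin m → Bool) (t : List ℕ) (i : ℕ) (hi : i < m) :
    (code m φ t)[2 * i + 2]? = some false := by
  have h := bits_get (List.ofFn (φ t)) i (by simpa using hi)
  unfold code
  simpa using h

theorem bits_inj (l l' : List Bool)
    (h : l.flatMap (fun b => [false, b]) = l'.flatMap (fun b => [false, b])) : l = l' := by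
  induction l generalizing l' with
  | nil =>
    cases l' with
    | nil => rfl
    | cons a l' => simp at h
  | cons a l ih =>
    cases l' with
    | nil => simp at h
    | cons b l' =>
      simp only [List.flatMap_cons, List.cons_append, List.nil_append, List.cons.injEq,
        true_and] at h
      rw [h.1, ih l' h.2]

theorem code_inj (m : ℕ) (φ : List ℕ → Fin m → Bool) (t t' : List ℕ)
    (h : code m φ t = code m φ t') : φ t = φ t' := by
  simp only [code, List.cons.injEq, true_and] at h
  exact List.ofFn_injective (bits_inj _ _ h)

/-- comma-freeness: occurrences of code words in suffixes are aligned -/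
theorem comma_free (m : ℕ) (hm : 0 < m) (φ : List ℕ → Fin m → Bool) (t : List ℕ) (V : List Bool)
    (y : List (List ℕ)) : ∀ P : List Bool, P ++ (code m φ t ++ V) = y.flatMap (code m φ) →
      ∃ y0 t' y1, y = y0 ++ t' :: y1 ∧ code m φ t = code m φ t' ∧ V = y1.flatMap (code m φ) := by
  induction y with
  | nil =>
    intro P h
    exfalso
    have := congrArg List.length h
    simp only [List.length_append, code_length, List.flatMap_nil, List.length_nil] at this
    omega
  | cons s y ih =>
    intro P h
    rw [List.flatMap_cons] at h
    by_cases h0 : 2 + 2 * m ≤ P.length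
    · -- `P` contains the first code word
      obtain ⟨P', hP, hP'⟩ : ∃ P', P = code m φ s ++ P' ∧
          P' ++ (code m φ t ++ V) = y.flatMap (code m φ) := by
        have h1 := List.append_eq_append_iff.1 h
        rcases h1 with ⟨a, ha, hb⟩ | ⟨c, hc, hd⟩
        · have hl := congrArg List.length ha
          rw [code_length, List.length_append] at hl
          have ha0 : a = [] := List.length_eq_zero_iff.1 (by omega)
          subst ha0
          refine ⟨[], by simpa using ha.symm, by simpa using hb⟩
        · exact ⟨c, hc, hd.symm⟩
      obtain ⟨y0, t', y1, e1, e2, e3⟩ := ih P' hP'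
      exact ⟨s :: y0, t', y1, by rw [e1]; rfl, e2, e3⟩
    · by_cases h1 : P = []
      · subst h1
        rw [List.nil_append] at h
        have h2 := List.append_inj h (by rw [code_length, code_length])
        exact ⟨[], s, y, rfl, h2.1, h2.2⟩
      · exfalso
        have hP : 0 < P.length := List.length_pos_iff.2 h1
        have g : ∀ i v, (code m φ t)[i]? = some v →
            (code m φ s ++ y.flatMap (code m φ))[P.length + i]? = some v := by
          intro i v hv
          rw [← h, List.getElem?_append_right (by omega), Nat.add_sub_cancel_left]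
          have : i < (code m φ t).length := by
            by_contra hc
            rw [List.getElem?_eq_none (by omega)] at hv
            simp at hv
          rw [List.getElem?_append_left this, hv]
        have g0 := g 0 true (code_get0 m φ t)
        have g1 := g 1 true (code_get1 m φ t)
        have g2 := g 2 false (code_get2 m φ t 0 hm)
        have a1 : ∀ i, 2 * i + 2 = P.length ∨ 2 * i + 2 = P.length + 1 → ¬ i < m := by
          intro i hi him
          have h3 := code_get2 m φ s i him
          have hl : 2 * i + 2 < (code m φ s).length := by rw [code_length]; omega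
          rcases hi with hi | hi
          · rw [Nat.add_zero, ← hi, List.getElem?_append_left hl, h3] at g0
            simp at g0
          · rw [← hi, List.getElem?_append_left hl, h3] at g1
            simp at g1
        have hPl : P.length = 2 * m + 1 := by
          rcases Nat.even_or_odd' P.length with ⟨k, hk | hk⟩
          · exact absurd (show k - 1 < m by omega) (a1 (k - 1) (by omega))
          · by_contra hc
            exact absurd (show k < m by omega) (a1 k (by omega))
        rw [hPl] at g1 g2
        rw [List.getElem?_append_right (by rw [code_length]; omega), code_length] at g1 g2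
        have e1 : 2 * m + 1 + 1 - (2 + 2 * m) = 0 := by omega
        have e2 : 2 * m + 1 + 2 - (2 + 2 * m) = 1 := by omega
        rw [e1] at g1
        rw [e2] at g2
        cases y with
        | nil => simp at g1
        | cons t' y =>
          rw [List.flatMap_cons, List.getElem?_append_left (by rw [code_length]; omega),
            code_get1] at g2
          simp at g2

theorem code_lower_aux (m : ℕ) (hm : 0 < m) (φ : List ℕ → Fin m → Bool) (x : List (List ℕ)) :
    ∀ (y : List (List ℕ)), (∀ t ∈ x, ∀ t' ∈ y, φ t = φ t' → t = t') →
    ∀ (W Z : List Bool), W <:+ y.flatMap (code m φ) → Z.Sublist (x.flatMap (code m φ)) →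
      Z.Sublist W → ∃ z : List (List ℕ), z.Sublist x ∧ z.Sublist y ∧
        x.length + 2 * Z.length ≤ z.length + (x.flatMap (code m φ)).length + W.length := by
  induction x with
  | nil =>
    intro y _ W Z _ hZ _
    have : Z = [] := by simpa using hZ
    subst this
    exact ⟨[], List.nil_sublist _, List.nil_sublist _, by simp⟩
  | cons t x ih =>
    intro y hinj W Z hW hZ hZW
    rw [List.flatMap_cons] at hZ
    obtain ⟨Z1, Z2, hZ12, hZ1, hZ2⟩ := List.sublist_append_iff.1 hZ
    subst hZ12
    obtain ⟨Y1, Y2, hY12, hY1, hY2⟩ := List.append_sublist_iff.1 hZW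
    subst hY12
    have hl1 := hZ1.length_le
    have hl2 := hY1.length_le
    have hinj' : ∀ t ∈ x, ∀ t' ∈ y, φ t = φ t' → t = t' := fun s hs =>
      hinj s (List.mem_cons_of_mem _ hs)
    rw [List.flatMap_cons]
    by_cases hc : Z1.length = (code m φ t).length ∧ Y1.length = Z1.length
    · have e1 : Z1 = code m φ t := hZ1.eq_of_length hc.1
      have e2 : Z1 = Y1 := hY1.eq_of_length hc.2.symm
      subst e1
      subst e2
      obtain ⟨P, hP⟩ := hW
      obtain ⟨y0, t', y1, h1, h2, h3⟩ := comma_free m hm φ t Y2 y P hP
      have ht : t = t' := hinj t List.mem_cons_self t' (by rw [h1]; simp) (code_inj m φ t t' h2)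
      obtain ⟨z, z1, z2, z3⟩ := ih y1 (fun s hs s' hs' => hinj' s hs s' (by
        rw [h1]; exact List.mem_append_right _ (List.mem_cons_of_mem _ hs'))) Y2 Z2
        (by rw [h3]) hZ2 hY2
      refine ⟨t :: z, z1.cons_cons t, ?_, ?_⟩
      · rw [h1, ← ht]
        exact (z2.cons_cons t).trans (List.sublist_append_right _ _)
      · simp only [List.length_cons, List.length_append]
        omega
    · obtain ⟨z, z1, z2, z3⟩ := ih y hinj' Y2 Z2 ((List.suffix_append Y1 Y2).trans hW) hZ2 hY2
      refine ⟨z, z1.trans (List.sublist_cons_self t x), z2, ?_⟩
      simp only [List.length_cons, List.length_append]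
      omega

theorem code_lower (m : ℕ) (φ : List ℕ → Fin m → Bool) (x y : List (List ℕ))
    (hxy : x.length = y.length) (hinj : ∀ t ∈ x, ∀ t' ∈ y, φ t = φ t' → t = t') :
    ∃ z : List (List ℕ), z.Sublist x ∧ z.Sublist y ∧
      x.length ≤ z.length + 2 * editDist (x.flatMap (code m φ)) (y.flatMap (code m φ)) := by
  rcases Nat.eq_zero_or_pos m with hm | hm
  · subst hm
    refine ⟨x, List.Sublist.refl _, ?_, by omega⟩
    have h1 : ∀ t ∈ x, ∀ t' ∈ y, t = t' := fun t ht t' ht' =>
      hinj t ht t' ht' (funext fun i => i.elim0)
    have : x = y := by
      apply List.ext_getElem hxy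
      intro i hi hi'
      exact h1 _ (List.getElem_mem hi) _ (List.getElem_mem hi')
    rw [this]
  · obtain ⟨Z, hZ1, hZ2, hZ3⟩ := ed_sublist (x.flatMap (code m φ)) (y.flatMap (code m φ))
    obtain ⟨z, z1, z2, z3⟩ := code_lower_aux m hm φ x y hinj _ Z (List.suffix_refl _) hZ1 hZ2
    refine ⟨z, z1, z2, ?_⟩
    have hlen : ∀ w : List (List ℕ), (w.flatMap (code m φ)).length = w.length * (2 + 2 * m) := by
      intro w
      induction w with
      | nil => simp
      | cons a w ih =>
        rw [List.flatMap_cons, List.length_append, ih, code_length, List.length_cons]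
        ring
    rw [hlen y, ← hxy, ← hlen x] at z3
    omega

end Crest.Agent.R210
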