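import Mathlib
import Crest.Prelude.Def_EditDistance

/-! # Row 210 (S0323): definitions shared by all pieces (owner helper14; FROZEN) -/

set_option autoImplicit false
open Crest.GeometryTopology.EditDistance

namespace Crest.Agent.R210

/-- kernels of `ℓ¹` type: symmetric, triangle inequality, negative type -/
structure Ker {X : Type} (N : X → X → ℝ) : Prop where
  refl : ∀ x, N x x = 0
  symm : ∀ x y, N x y = N y x
  tri : ∀ x y z, N x z ≤ N x y + N y z
  neg : ∀ (ι : Type) (s : Finset ι) (c : ι → ℝ) (x : ι → X), ∑ i ∈ s, c i = 0 →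
    ∑ i ∈ s, ∑ j ∈ s, c i * c j * N (x i) (x j) ≤ 0

/-- average over a finite type -/
noncomputable def av {α : Type} [Fintype α] (f : α → ℝ) : ℝ := (∑ x, f x) / (Fintype.card α : ℝ)

/-- the columns used by the family with index `p` -/
def cols {s : ℕ} (p : Fin s) : List (Fin s) := (List.finRange s).filter (fun i => decide (i ≠ p))

/-- concatenation of the blocks `b l i`, rows `l < M`, columns `i ≠ p` -/
def word {s : ℕ} {α : Type} (M : ℕ) (p : Fin s) (b : ℕ → Fin s → List α) : List α :=
  (List.range M).flatMap fun l => (cols p).flatMap fun i => b l i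

/-- index of the block used in row `l`, column `i`, by the member `y` of the family `p`:
`v_i + y / q_p + l mod q_i`. -/
def idx {s : ℕ} (q : Fin s → ℕ) (p : Fin s) (v : ∀ i, ZMod (q i)) (y l : ℕ) (i : Fin s) :
    ZMod (q i) :=
  v i + (y : ZMod (q i)) * ((q p : ℕ) : ZMod (q i))⁻¹ + (l : ZMod (q i))

/-- family `p` of the next level, made from the families `U i` and the phases `v` -/
def fam {s : ℕ} {α : Type} (q : Fin s → ℕ) (M : ℕ) (p : Fin s) (U : ∀ i, ZMod (q i) → List α)
    (v : ∀ i, ZMod (q i)) (y : ℕ) : List α :=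
  word M p fun l i => U i (idx q p v y l i)

/-- a random family of words `X ω y` (`n` letters each) is `κ`-fooled: cyclic relabelling
is invisible for all kernels which are Lipschitz for the edit distance of the binary words. -/
def Fool (Q n : ℕ) [NeZero Q] {Ω : Type} [Fintype Ω] (κ : ℝ)
    (X : Ω → ZMod Q → List (List ℕ)) : Prop :=
  ∀ (L : ℕ) (enc : List ℕ → List Bool), (∀ t, (enc t).length = L) →
  ∀ (N : (ZMod Q → List Bool) → (ZMod Q → List Bool) → ℝ) (lam : ℝ), Ker N → 0 ≤ lam →
    (∀ W W' : ZMod Q → List Bool, (∀ y, (W y).length = n * L) → (∀ y, (W' y).length = n * L) →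
      N W W' ≤ lam * ∑ y, (editDist (W y) (W' y) : ℝ)) →
  ∀ a : ZMod Q,
    av (fun ω => N (fun y => (X ω y).flatMap enc) (fun y => (X ω (y + a)).flatMap enc)) ≤
      κ * lam * L * Q * n

/-- words are pairwise far: every common subsequence of `X ω y`, `X ω y'` (`y ≠ y'`) has at most
`(1-a) n` letters -/
def FarFam (Q n : ℕ) {Ω : Type} (a : ℝ) (X : Ω → ZMod Q → List (List ℕ)) : Prop :=
  ∀ ω y y', y ≠ y' → ∀ z : List (List ℕ), z.Sublist (X ω y) → z.Sublist (X ω y') →
    (z.length : ℝ) ≤ (1 - a) * n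

/-- level `j`: there is a random family indexed by `ZMod Q` of words with `n` letters; letters are
lists of length `j+1` with entries `< B`. -/
def Lev (Q : ℕ) [NeZero Q] (j n B : ℕ) (a κ : ℝ) : Prop :=
  ∃ (Ω : Type) (_ : Fintype Ω) (_ : Nonempty Ω) (X : Ω → ZMod Q → List (List ℕ)),
    (∀ ω y, (X ω y).length = n) ∧
    (∀ ω y, ∀ t ∈ X ω y, t.length = j + 1 ∧ ∀ m ∈ t, m < B) ∧
    FarFam Q n a X ∧ Fool Q n κ X

/-- the binary code of a letter: `11 0b₁ 0b₂ … 0b_m` -/
def code (m : ℕ) (φ : List ℕ → Fin m → Bool) (t : List ℕ) : List Bool :=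
  true :: true :: (List.ofFn (φ t)).flatMap (fun b => [false, b])

end Crest.Agent.R210
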