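import Crest.Agent.R210.Defs

/-! # Piece FAR-A: a word with one tag which is almost all of an infix of `word` lies in one block

`Y = word M p (tagged γ)`; the letter of `Y` at position `i` has tag `(cols p)[(i / n) % (s-1)]` and lies in row
`i / (n (s-1))`.  `z` is a subsequence of the infix `yc` of `Y`, all letters of `z` have tag `c = (cols p)[k]`, and
fewer than `n` letters of `yc` are not in `z`.  Let `i₀ ≤ i₁` be the positions (in `Y`) of the first and last letter of `z`.
Both are in blocks with tag `c`: `i₀ / n = l₀ (s-1) + k`, `i₁ / n = l₁ (s-1) + k`.  If `l₀ < l₁`, all the `n` letters of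
block number `l₀ (s-1) + k + 1` (tag `≠ c`) are in `yc` and not in `z`, contradiction.  So `l₀ = l₁ = l` and `z` is a
subsequence of that block.  (Any other proof is fine, e.g. by induction on the rows with `List` splitting.) -/

set_option autoImplicit false

namespace Crest.Agent.R210

namespace FarAaux

theorem getElem?_flatMap_const {α β : Type} (N : ℕ) (hN : 0 < N) (g : β → List α) :
    ∀ (L : List β) (_ : ∀ x ∈ L, (g x).length = N) (i : ℕ),
      (L.flatMap g)[i]? = (L[i / N]?).bind (fun x => (g x)[i % N]?) := by
  intro L
  induction L with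
  | nil => intro _ i; simp
  | cons x L ih =>
    intro hg i
    rw [List.flatMap_cons]
    have hx : (g x).length = N := hg x (by simp)
    by_cases hi : i < N
    · rw [List.getElem?_append_left (by omega), Nat.div_eq_of_lt hi, Nat.mod_eq_of_lt hi]
      simp
    · rw [List.getElem?_append_right (by omega), hx, ih (fun y hy => hg y (by simp [hy]))]
      have h1 : i / N = (i - N) / N + 1 := Nat.div_eq_sub_div hN (by omega)
      have h2 : i % N = (i - N) % N := Nat.mod_eq_sub_mod (by omega)
      rw [h1, h2]
      simp

theorem cols_length {s : ℕ} (p : Fin s) : (cols p).length = s - 1 := by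
  unfold cols
  have h : ((List.finRange s).filter (fun i => decide (i ≠ p))) = (List.finRange s).erase p := by
    rw [(List.nodup_finRange s).erase_eq_filter]
    apply List.filter_congr
    intro i _
    by_cases h : i = p <;> simp [h]
  rw [h, List.length_erase_of_mem (List.mem_finRange p), List.length_finRange]

theorem cols_nodup {s : ℕ} (p : Fin s) : (cols p).Nodup :=
  (List.nodup_finRange s).filter _

/-- the list of all blocks (row, column) -/
def blocks {s : ℕ} (M : ℕ) (p : Fin s) : List (ℕ × Fin s) :=
  (List.range M).flatMap fun l => (cols p).map fun c => (l, c)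

theorem word_eq {s : ℕ} {α : Type} (M : ℕ) (p : Fin s) (b : ℕ → Fin s → List α) :
    word M p b = (blocks M p).flatMap (fun x => b x.1 x.2) := by
  unfold word blocks
  rw [List.flatMap_assoc]
  congr 1
  funext l
  rw [List.flatMap_map]

theorem blocks_getElem? {s : ℕ} (hs : 2 ≤ s) (M : ℕ) (p : Fin s) (m : ℕ) (x : ℕ × Fin s)
    (h : (blocks M p)[m]? = some x) :
    m / (s - 1) < M ∧ x.1 = m / (s - 1) ∧ (cols p)[m % (s - 1)]? = some x.2 := by
  unfold blocks at h
  rw [getElem?_flatMap_const (s - 1) (by omega) _ _ (by
    intro l _; rw [List.length_map, cols_length])] at h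
  rw [Option.bind_eq_some_iff] at h
  obtain ⟨l, hl, hx⟩ := h
  rw [List.getElem?_map, Option.map_eq_some_iff] at hx
  obtain ⟨c, hc, rfl⟩ := hx
  rw [List.getElem?_eq_some_iff] at hl
  obtain ⟨h1, h2⟩ := hl
  rw [List.length_range] at h1
  rw [List.getElem_range] at h2
  exact ⟨h1, h2.symm, hc⟩

end FarAaux

open FarAaux

theorem cheap_block {s : ℕ} (p : Fin s) (M n : ℕ) (hs : 3 ≤ s) (γ : ℕ → Fin s → List (List ℕ))
    (hγ : ∀ l i, (γ l i).length = n) (k : ℕ) (c : Fin s) (hk : (cols p)[k]? = some c)
    (u yc w z : List (List ℕ))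
    (hY : word M p (fun l i => (γ l i).map (i.val :: ·)) = u ++ yc ++ w)
    (hz : z.Sublist yc) (htag : ∀ t ∈ z, ∃ t', t = c.val :: t') (hne : z ≠ [])
    (hlen : yc.length < z.length + n) :
    ∃ l < M, u.length < (l * (s - 1) + k + 1) * n ∧
      (l * (s - 1) + k) * n < u.length + yc.length ∧
      z.Sublist ((γ l c).map (c.val :: ·)) := by
  classical
  have hzle : z.length ≤ yc.length := hz.length_le
  have hn : 0 < n := by omega
  have hzpos : 0 < z.length := List.length_pos_iff.mpr hne
  obtain ⟨f, hf⟩ := List.sublist_iff_exists_fin_orderEmbedding_get_eq.mp hz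
  -- the letter of `Y` at a position of `yc`
  have hk' : k < s - 1 := by
    have := (List.getElem?_eq_some_iff.mp hk).1
    rwa [cols_length] at this
  have key : ∀ (x : Fin yc.length), ∃ l c', (u.length + x) / n / (s - 1) < M ∧
      l = (u.length + x) / n / (s - 1) ∧
      (cols p)[((u.length + x) / n) % (s - 1)]? = some c' ∧
      ((γ l c').map (c'.val :: ·))[(u.length + x) % n]? = some (yc.get x) := by
    intro x
    have h1 : (word M p (fun l i => (γ l i).map (i.val :: ·)))[u.length + x]? =
        some (yc.get x) := by
      rw [hY, List.append_assoc, List.getElem?_append_right (by omega), Nat.add_sub_cancel_left,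
        List.getElem?_append_left x.2, List.getElem?_eq_getElem x.2]
      rfl
    rw [word_eq, getElem?_flatMap_const n hn _ _ (by
      intro x _; rw [List.length_map, hγ])] at h1
    rw [Option.bind_eq_some_iff] at h1
    obtain ⟨⟨l, c'⟩, hb, hx⟩ := h1
    obtain ⟨h2, h3, h4⟩ := blocks_getElem? (by omega) M p _ _ hb
    exact ⟨l, c', h2, h3, h4, hx⟩
  -- letters with tag `c`
  have keyc : ∀ (x : Fin yc.length), (∃ t', yc.get x = c.val :: t') →
      ((u.length + x) / n) % (s - 1) = k := by
    intro x ⟨t', ht'⟩
    obtain ⟨l, c', _, _, h4, h5⟩ := key x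
    rw [ht', List.getElem?_map, Option.map_eq_some_iff] at h5
    obtain ⟨t, _, h6⟩ := h5
    have hcc : c' = c := by
      apply Fin.ext
      exact (List.cons.inj h6).1
    subst hcc
    have hlt : ((u.length + x) / n) % (s - 1) < (cols p).length := by
      rw [cols_length]; exact Nat.mod_lt _ (by omega)
    have hlt2 : k < (cols p).length := by rw [cols_length]; exact hk'
    rw [List.getElem?_eq_getElem hlt] at h4
    rw [List.getElem?_eq_getElem hlt2] at hk
    exact (List.Nodup.getElem_inj_iff (cols_nodup p)).mp (Option.some.inj (h4.trans hk.symm))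
  have keyz : ∀ j : Fin z.length, ((u.length + f j) / n) % (s - 1) = k := by
    intro j
    apply keyc
    rw [← hf j]
    exact htag _ (List.get_mem _ _)
  -- all letters of `z` are in the same block
  have same : ∀ j j' : Fin z.length, j ≤ j' →
      (u.length + f j) / n = (u.length + f j') / n := by
    intro j j' hjj
    by_contra hcon
    have hle : (u.length + f j) / n ≤ (u.length + f j') / n := by
      apply Nat.div_le_div_right
      have := f.monotone hjj
      have : (f j : ℕ) ≤ f j' := this
      omega
    set b₀ := (u.length + f j) / n with hb0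
    set b₁ := (u.length + f j') / n with hb1
    have hlt : b₀ < b₁ := lt_of_le_of_ne hle hcon
    have hm0 : b₀ % (s - 1) = k := keyz j
    have hm1 : b₁ % (s - 1) = k := keyz j'
    have hb2 : b₀ + 2 ≤ b₁ := by
      by_contra h
      have h1 : b₁ = b₀ + 1 := by omega
      have h2 : (b₀ + 1) % (s - 1) = b₀ % (s - 1) := by rw [← h1, hm1, hm0]
      have h3 : (s - 1) ∣ 1 := by
        have := (Nat.modEq_iff_dvd' (n := s - 1) (a := b₀) (b := b₀ + 1) (by omega)).mp h2.symm
        simpa using this
      have := Nat.le_of_dvd (by norm_num) h3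
      omega
    have hb3 : (b₀ + 1) % (s - 1) ≠ k := by
      intro h
      have h2 : (b₀ + 1) % (s - 1) = b₀ % (s - 1) := by rw [h, hm0]
      have h3 : (s - 1) ∣ 1 := by
        have := (Nat.modEq_iff_dvd' (n := s - 1) (a := b₀) (b := b₀ + 1) (by omega)).mp h2.symm
        simpa using this
      have := Nat.le_of_dvd (by norm_num) h3
      omega
    have hlow : u.length + (f j : ℕ) < (b₀ + 1) * n := by
      have := Nat.lt_div_mul_add (a := u.length + (f j : ℕ)) hn
      rw [← hb0] at this
      linarith [this]
    have hhigh : (b₀ + 2) * n ≤ u.length + (f j' : ℕ) := by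
      have h1 : b₁ * n ≤ u.length + (f j' : ℕ) := Nat.div_mul_le_self _ _
      have h2 : (b₀ + 2) * n ≤ b₁ * n := Nat.mul_le_mul_right _ hb2
      omega
    have hjl := (f j').2
    -- the letters of block `b₀ + 1`
    have hpos : ∀ r : Fin n, (b₀ + 1) * n + r - u.length < yc.length := by
      intro r
      have := r.2
      have h2 : (b₀ + 2) * n = (b₀ + 1) * n + n := by ring
      omega
    let g : Fin n → Fin yc.length := fun r => ⟨(b₀ + 1) * n + r - u.length, hpos r⟩
    have hginj : Function.Injective g := by
      intro r r' h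
      have h1 : (b₀ + 1) * n + r - u.length = (b₀ + 1) * n + r' - u.length := by
        simpa [g] using h
      apply Fin.ext
      omega
    have hdisj : Disjoint (Finset.univ.image f) (Finset.univ.image g) := by
      rw [Finset.disjoint_left]
      intro x hx hx'
      rw [Finset.mem_image] at hx hx'
      obtain ⟨i, _, rfl⟩ := hx
      obtain ⟨r, _, hr⟩ := hx'
      have h1 := keyz i
      rw [← hr] at h1
      have h2 : u.length + ((g r : Fin yc.length) : ℕ) = (b₀ + 1) * n + r := by
        change u.length + ((b₀ + 1) * n + r - u.length) = _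
        omega
      rw [h2] at h1
      have h3 : ((b₀ + 1) * n + (r : ℕ)) / n = b₀ + 1 := by
        rw [Nat.mul_comm, Nat.mul_add_div hn, Nat.div_eq_of_lt r.2]
      rw [h3] at h1
      exact hb3 h1
    have hcard := Finset.card_le_univ ((Finset.univ.image f) ∪ (Finset.univ.image g))
    rw [Finset.card_union_of_disjoint hdisj, Finset.card_image_of_injective _ f.injective,
      Finset.card_image_of_injective _ hginj, Finset.card_univ, Finset.card_univ, Fintype.card_fin,
      Fintype.card_fin, Fintype.card_fin] at hcard
    omega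
  -- the block
  set j₀ : Fin z.length := ⟨0, hzpos⟩ with hj0
  set b := (u.length + f j₀) / n with hb
  have hall : ∀ j : Fin z.length, (u.length + f j) / n = b := by
    intro j
    exact (same j₀ j (Fin.mk_le_mk.mpr (Nat.zero_le _))).symm
  have hbk : b % (s - 1) = k := keyz j₀
  obtain ⟨l₀, c₀, hlM, hl0, hc0, _⟩ := key (f j₀)
  have hbl : b / (s - 1) * (s - 1) + k = b := by
    rw [← hbk]; exact Nat.div_add_mod' b (s - 1)
  refine ⟨b / (s - 1), hlM, ?_, ?_, ?_⟩
  · rw [hbl]
    have := Nat.lt_div_mul_add (a := u.length + (f j₀ : ℕ)) hn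
    rw [← hb] at this
    have h2 : (b + 1) * n = b * n + n := by ring
    omega
  · rw [hbl]
    have h1 : b * n ≤ u.length + (f j₀ : ℕ) := Nat.div_mul_le_self _ _
    have := (f j₀).2
    omega
  · rw [List.sublist_iff_exists_fin_orderEmbedding_get_eq]
    have hBl : ((γ (b / (s - 1)) c).map (c.val :: ·)).length = n := by
      rw [List.length_map, hγ]
    have hmod : ∀ j : Fin z.length, (u.length + f j) % n + b * n = u.length + f j := by
      intro j
      rw [← hall j]
      exact Nat.mod_add_div' _ _
    refine ⟨OrderEmbedding.ofStrictMono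
      (fun j => ⟨(u.length + f j) % n, by rw [hBl]; exact Nat.mod_lt _ hn⟩) ?_, ?_⟩
    · intro j j' hjj
      have h1 := hmod j
      have h2 := hmod j'
      have h3 : (f j : ℕ) < f j' := f.strictMono hjj
      rw [Fin.mk_lt_mk]
      omega
    · intro j
      obtain ⟨l, c', h1, h2, h3, h4⟩ := key (f j)
      rw [hall j] at h2 h3
      rw [hbk, hk] at h3
      have hcc : c' = c := (Option.some.inj h3).symm
      subst hcc
      subst h2
      rw [← hf j] at h4
      have h5 := (List.getElem?_eq_some_iff.mp h4)
      obtain ⟨h6, h7⟩ := h5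
      rw [← h7]
      rfl

end Crest.Agent.R210
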