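import Crest.Agent.R210.Defs
import Crest.Agent.R210.FarA

/-! # Piece FAR-B: one row

Let `S' = s - 1 ≥ 8`.  `z` is a common subsequence of the row `x = ∏_{i ≠ p} tag_i (b i)` and the infix `y` of
`Y = word M p (tagged γ)`.  Split `x` into its blocks: `z = ∏_k z_k`, `z_k <+ tag_{c_k} (b c_k)`, `c_k = (cols p)[k]`, and then
`y = ∏ y_k`, `z_k <+ y_k` (`List.sublist_append_iff`, `List.append_sublist_iff`, induction over `cols p`); `u_k = u ++ y_0 ⋯ y_{k-1}`.
Cost of block `k`: `e_k = n + |y_k| - 2|z_k| ≥ 0`, `∑ e_k = S' n + |y| - 2|z|`.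
Suppose `∑ e_k < (3/4) a S' n`.  Call `k` cheap if `e_k < a n` (`≤ n`).  More than `S'/4` of the `k` are cheap.
For cheap `k`: `z_k ≠ []`, `|y_k| < |z_k| + n`, so `cheap_block` gives `φ k < M` with `z_k <+ tag (γ (φ k) c_k)`,
`|u_k| < (φ k S' + k + 1) n` and `(φ k S' + k) n < |u_k| + |y_k|`; also `E (φ k) c_k` holds, otherwise
(`tag` is injective) `|z_k| ≤ (1-a) n` by `hF` and `e_k ≥ n - |z_k| ≥ a n`.
By `hE` the `φ k` (`k` cheap) are not all equal.  Take cheap `k < k'` with `φ k ≠ φ k'`.
If `φ k' < φ k`: `(φ k S' + k) n < |u_k| + |y_k| ≤ |u_{k'}| < (φ k' S' + k' + 1) n`, so `S' + k ≤ k'`, impossible.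
If `φ k < φ k'`: `∑_{j=k}^{k'} |y_j| = |u_{k'}| + |y_{k'}| - |u_k| ≥ (S' + k' - k - 1) n`, and `e_j ≥ |y_j| - n`, so
`∑ e_j ≥ (S' + k' - k - 1) n - (k' - k + 1) n = (S' - 2) n ≥ (3/4) S' n`.  Contradiction. -/

set_option autoImplicit false

namespace Crest.Agent.R210

namespace FarBAux

theorem cols_nodup {s : ℕ} (p : Fin s) : (cols p).Nodup :=
  (List.nodup_finRange s).filter _

theorem mem_cols {s : ℕ} (p i : Fin s) : i ∈ cols p ↔ i ≠ p := by
  simp [cols]

theorem cols_length {s : ℕ} (p : Fin s) : (cols p).length = s - 1 := by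
  classical
  have h1 : (cols p).toFinset = Finset.univ.erase p := by
    ext i; simp [mem_cols]
  rw [← List.toFinset_card_of_nodup (cols_nodup p), h1, Finset.card_erase_of_mem (Finset.mem_univ p)]
  simp

theorem flatMap_range_succ {α : Type} (g : ℕ → List α) (m : ℕ) :
    (List.range (m + 1)).flatMap g = (List.range m).flatMap g ++ g m := by
  rw [List.range_succ, List.flatMap_append]; simp

theorem flatMap_range_succ' {α : Type} (g : ℕ → List α) (m : ℕ) :
    (List.range (m + 1)).flatMap g = g 0 ++ (List.range m).flatMap (fun k => g (k + 1)) := by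
  rw [List.range_succ_eq_map, List.flatMap_cons, List.flatMap_map]

theorem flatMap_range_split {α : Type} (g : ℕ → List α) (k m : ℕ) (h : k < m) :
    ∃ rest, (List.range m).flatMap g = (List.range k).flatMap g ++ g k ++ rest := by
  induction m, h using Nat.le_induction with
  | base => exact ⟨[], by rw [flatMap_range_succ]; simp⟩
  | succ m hm ih =>
    obtain ⟨rest, hr⟩ := ih
    exact ⟨rest ++ g m, by rw [flatMap_range_succ, hr]; simp⟩

theorem flatMap_range_length {α : Type} (g : ℕ → List α) (m : ℕ) :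
    ((List.range m).flatMap g).length = ∑ j ∈ Finset.range m, (g j).length := by
  induction m with
  | zero => simp
  | succ m ih => rw [flatMap_range_succ, List.length_append, ih, Finset.sum_range_succ]

theorem split {α β : Type} (f : β → List α) (cs : List β) (z y : List α)
    (hz : z.Sublist (cs.flatMap f)) (hy : z.Sublist y) :
    ∃ (Z Y : ℕ → List α) (r : List α), z = (List.range cs.length).flatMap Z ∧
      y = (List.range cs.length).flatMap Y ++ r ∧
      ∀ k c, cs[k]? = some c → (Z k).Sublist (f c) ∧ (Z k).Sublist (Y k) := by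
  induction cs generalizing z y with
  | nil =>
    refine ⟨fun _ => [], fun _ => [], y, ?_, ?_, ?_⟩
    · simpa using hz
    · simp
    · intro k c h; simp at h
  | cons c cs ih =>
    rw [List.flatMap_cons, List.sublist_append_iff] at hz
    obtain ⟨z1, z2, rfl, h1, h2⟩ := hz
    obtain ⟨y1, y2, rfl, h3, h4⟩ := List.append_sublist_iff.1 hy
    obtain ⟨Z, Y, r, e1, e2, e3⟩ := ih z2 y2 h2 h4
    refine ⟨fun k => Nat.casesOn k z1 Z, fun k => Nat.casesOn k y1 Y, r, ?_, ?_, ?_⟩
    · rw [List.length_cons, flatMap_range_succ']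
      simp only
      rw [← e1]
      rfl
    · rw [List.length_cons, flatMap_range_succ']
      simp only
      rw [List.append_assoc, ← e2]
      rfl
    · intro k d hk
      cases k with
      | zero =>
        simp only [List.getElem?_cons_zero, Option.some.injEq] at hk
        subst hk
        exact ⟨h1, h3⟩
      | succ k =>
        rw [List.getElem?_cons_succ] at hk
        exact e3 k d hk

end FarBAux

theorem far_row {s : ℕ} (p : Fin s) (M n : ℕ) (hs : 9 ≤ s) (a : ℝ) (ha0 : 0 ≤ a) (ha1 : a ≤ 1)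
    (b : Fin s → List (List ℕ)) (γ : ℕ → Fin s → List (List ℕ)) (hb : ∀ i, (b i).length = n)
    (hγ : ∀ l i, (γ l i).length = n) (E : ℕ → Fin s → Prop) [∀ l i, Decidable (E l i)]
    (hE : ∀ l < M, 4 * (Finset.univ.filter (fun i => i ≠ p ∧ E l i)).card ≤ s - 1)
    (hF : ∀ l < M, ∀ i, i ≠ p → ¬ E l i → ∀ z : List (List ℕ),
      z.Sublist (b i) → z.Sublist (γ l i) → (z.length : ℝ) ≤ (1 - a) * n)
    (u y w z : List (List ℕ))
    (hY : word M p (fun l i => (γ l i).map (i.val :: ·)) = u ++ y ++ w)
    (hz1 : z.Sublist ((cols p).flatMap fun i => (b i).map (i.val :: ·))) (hz2 : z.Sublist y) :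
    3 / 4 * a * (((s - 1 : ℕ) : ℝ) * n) ≤ ((s - 1 : ℕ) : ℝ) * n + y.length - 2 * z.length := by
  classical
  by_contra hcon
  push Not at hcon
  obtain ⟨Z, Yf, r, hzZ, hyY, hZY⟩ :=
    FarBAux.split (fun i : Fin s => (b i).map (i.val :: ·)) (cols p) z y hz1 hz2
  have hlen : (cols p).length = s - 1 := FarBAux.cols_length p
  rw [hlen] at hzZ hyY
  set S' := s - 1 with hS'
  have hS8 : 8 ≤ S' := by omega
  -- the columns
  have hcol : ∀ k, k < S' → ∃ c, (cols p)[k]? = some c ∧ c ≠ p := by
    intro k hk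
    have hk' : k < (cols p).length := by rw [hlen]; exact hk
    refine ⟨(cols p)[k], List.getElem?_eq_getElem hk', ?_⟩
    exact (FarBAux.mem_cols p _).1 (List.getElem_mem hk')
  -- lengths
  have hZn : ∀ k, k < S' → (Z k).length ≤ n := by
    intro k hk
    obtain ⟨c, hc, _⟩ := hcol k hk
    have := (hZY k c hc).1.length_le
    rwa [List.length_map, hb] at this
  have hZY' : ∀ k, k < S' → (Z k).length ≤ (Yf k).length := by
    intro k hk
    obtain ⟨c, hc, _⟩ := hcol k hk
    exact (hZY k c hc).2.length_le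
  -- costs
  let e : ℕ → ℝ := fun k => (n : ℝ) + (Yf k).length - 2 * (Z k).length
  have he : ∀ k, e k = (n : ℝ) + (Yf k).length - 2 * (Z k).length := fun k => rfl
  have he0 : ∀ k, k < S' → 0 ≤ e k := by
    intro k hk
    have h1 : ((Z k).length : ℝ) ≤ n := by exact_mod_cast hZn k hk
    have h2 : ((Z k).length : ℝ) ≤ (Yf k).length := by exact_mod_cast hZY' k hk
    rw [he]; linarith
  have hsumY : (y.length : ℝ) = ∑ k ∈ Finset.range S', ((Yf k).length : ℝ) + r.length := by
    rw [hyY, List.length_append, FarBAux.flatMap_range_length]; push_cast; rfl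
  have hsumZ : (z.length : ℝ) = ∑ k ∈ Finset.range S', ((Z k).length : ℝ) := by
    rw [hzZ, FarBAux.flatMap_range_length]; push_cast; rfl
  have hsum : ∑ k ∈ Finset.range S', e k ≤ (S' : ℝ) * n + y.length - 2 * z.length := by
    rw [hsumY, hsumZ]
    simp only [he]
    rw [Finset.sum_sub_distrib, Finset.sum_add_distrib, ← Finset.mul_sum]
    simp only [Finset.sum_const, Finset.card_range, nsmul_eq_mul]
    have : (0 : ℝ) ≤ r.length := by positivity
    linarith
  have hlt : ∑ k ∈ Finset.range S', e k < 3 / 4 * a * ((S' : ℝ) * n) := lt_of_le_of_lt hsum hcon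
  have hn0 : (0 : ℝ) ≤ n := by positivity
  have hSn0 : (0 : ℝ) ≤ (S' : ℝ) * n := by positivity
  -- cheap columns
  let C : Finset ℕ := (Finset.range S').filter fun k => e k < a * n
  have hCcard : S' < 4 * C.card := by
    by_contra hle
    push Not at hle
    have h1 : ∑ k ∈ Finset.range S' \ C, e k ≤ ∑ k ∈ Finset.range S', e k :=
      Finset.sum_le_sum_of_subset_of_nonneg Finset.sdiff_subset fun k hk _ =>
        he0 k (Finset.mem_range.1 hk)
    have h2 : ((Finset.range S' \ C).card : ℝ) * (a * n) ≤ ∑ k ∈ Finset.range S' \ C, e k := by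
      rw [← nsmul_eq_mul]
      refine Finset.card_nsmul_le_sum _ _ _ fun k hk => ?_
      rw [Finset.mem_sdiff, Finset.mem_filter, not_and, not_lt] at hk
      exact hk.2 hk.1
    have h3 : (Finset.range S' \ C).card = S' - C.card := by
      rw [Finset.card_sdiff_of_subset (Finset.filter_subset _ _), Finset.card_range]
    have h4 : C.card ≤ S' := by
      have := Finset.card_le_card (Finset.filter_subset (fun k => e k < a * n) (Finset.range S'))
      rwa [Finset.card_range] at this
    have h5 : (3 / 4 : ℝ) * S' ≤ ((S' - C.card : ℕ) : ℝ) := by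
      rw [Nat.cast_sub h4]
      have : (4 : ℝ) * C.card ≤ S' := by exact_mod_cast hle
      linarith
    rw [h3] at h2
    have h6 : 3 / 4 * a * ((S' : ℝ) * n) ≤ ((S' - C.card : ℕ) : ℝ) * (a * n) := by
      have : 0 ≤ a * n := mul_nonneg ha0 hn0
      calc 3 / 4 * a * ((S' : ℝ) * n) = (3 / 4 * S') * (a * n) := by ring
        _ ≤ _ := mul_le_mul_of_nonneg_right h5 this
    linarith
  -- prefixes
  let U : ℕ → List (List ℕ) := fun k => u ++ (List.range k).flatMap Yf
  have hU : ∀ k, U k = u ++ (List.range k).flatMap Yf := fun k => rfl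
  have hUlen : ∀ k, (U k).length = u.length + ∑ j ∈ Finset.range k, (Yf j).length := by
    intro k
    rw [hU, List.length_append, FarBAux.flatMap_range_length]
  have hUmono : ∀ k k', k < k' → (U k).length + (Yf k).length ≤ (U k').length := by
    intro k k' hkk
    rw [hUlen, hUlen]
    have : ∑ j ∈ Finset.range (k + 1), (Yf j).length ≤ ∑ j ∈ Finset.range k', (Yf j).length :=
      Finset.sum_le_sum_of_subset (Finset.range_subset_range.2 hkk)
    rw [Finset.sum_range_succ] at this
    omega
  -- the key fact for cheap columns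
  have key : ∀ k, k ∈ C → ∃ l, l < M ∧ (U k).length < (l * S' + k + 1) * n ∧
      (l * S' + k) * n < (U k).length + (Yf k).length ∧
      ∃ c, (cols p)[k]? = some c ∧ c ≠ p ∧ E l c := by
    intro k hk
    have hk1 : k < S' := Finset.mem_range.1 (Finset.mem_filter.1 hk).1
    have hk2 : e k < a * n := (Finset.mem_filter.1 hk).2
    obtain ⟨c, hc, hcp⟩ := hcol k hk1
    obtain ⟨hZ1, hZ2⟩ := hZY k c hc
    have h1 : ((Z k).length : ℝ) ≤ n := by exact_mod_cast hZn k hk1
    have h2 : ((Z k).length : ℝ) ≤ (Yf k).length := by exact_mod_cast hZY' k hk1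
    have han : a * n ≤ n := by nlinarith
    rw [he] at hk2
    have hne : Z k ≠ [] := by
      intro h0
      rw [h0] at hk2
      simp only [List.length_nil, Nat.cast_zero] at hk2
      have : (0 : ℝ) ≤ (Yf k).length := by positivity
      linarith
    have hl2 : (Yf k).length < (Z k).length + n := by
      have : ((Yf k).length : ℝ) < (Z k).length + n := by linarith
      exact_mod_cast this
    obtain ⟨rest, hrest⟩ := FarBAux.flatMap_range_split Yf k S' hk1
    have hY' : word M p (fun l i => (γ l i).map (i.val :: ·)) = U k ++ Yf k ++ (rest ++ r ++ w) := by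
      rw [hY, hyY, hrest, hU]
      simp only [List.append_assoc]
    have htag : ∀ t ∈ Z k, ∃ t', t = c.val :: t' := by
      intro t ht
      have := hZ1.subset ht
      obtain ⟨t', _, h⟩ := List.mem_map.1 this
      exact ⟨t', h.symm⟩
    obtain ⟨l, hl, hb1, hb2, hb3⟩ := cheap_block p M n (by omega) γ hγ k c hc (U k) (Yf k)
      (rest ++ r ++ w) (Z k) hY' hZ2 htag hne hl2
    refine ⟨l, hl, hb1, hb2, c, hc, hcp, ?_⟩
    by_contra hnE
    obtain ⟨z', hz', hzz⟩ := List.sublist_map_iff.1 hZ1
    rw [hzz] at hb3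
    obtain ⟨z'', hz'', hzz2⟩ := List.sublist_map_iff.1 hb3
    have hinj : Function.Injective (fun t : List ℕ => c.val :: t) := fun t t' h => by
      simpa using h
    have : z' = z'' := List.map_injective_iff.2 hinj hzz2
    subst this
    have h3 := hF l hl c hcp hnE z' hz' hz''
    have h4 : (Z k).length = z'.length := by rw [hzz, List.length_map]
    rw [← h4] at h3
    nlinarith
  -- choose
  choose! φ hφ1 hφ2 hφ3 hφ4 using key
  -- not all `φ` are equal
  have hneq : ∃ k ∈ C, ∃ k' ∈ C, k < k' ∧ φ k ≠ φ k' := by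
    by_contra hall
    push Not at hall
    have hCne : C.Nonempty := by
      rw [Finset.nonempty_iff_ne_empty]
      intro h0
      rw [h0] at hCcard
      simp at hCcard
    obtain ⟨k0, hk0⟩ := hCne
    have hsame : ∀ k ∈ C, φ k = φ k0 := by
      intro k hk
      rcases lt_trichotomy k k0 with h | h | h
      · exact hall k hk k0 hk0 h
      · rw [h]
      · exact (hall k0 hk0 k hk h).symm
    have hcard : C.card ≤ (Finset.univ.filter (fun i => i ≠ p ∧ E (φ k0) i)).card := by
      refine Finset.card_le_card_of_injOn (fun k => ((cols p)[k]?).getD p) ?_ ?_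
      · intro k hk
        obtain ⟨c, hc, hcp, hEc⟩ := hφ4 k hk
        simp only [Finset.coe_filter, Finset.mem_univ, true_and, Set.mem_ofPred_eq, hc,
          Option.getD_some]
        refine ⟨hcp, ?_⟩
        rw [← hsame k hk]; exact hEc
      · intro k hk k' hk' hkk
        have hk1 : k < S' := Finset.mem_range.1 (Finset.mem_filter.1 hk).1
        have hk1' : k' < S' := Finset.mem_range.1 (Finset.mem_filter.1 hk').1
        have h1 : k < (cols p).length := by rw [hlen]; exact hk1
        have h2 : k' < (cols p).length := by rw [hlen]; exact hk1'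
        simp only [List.getElem?_eq_getElem h1, List.getElem?_eq_getElem h2,
          Option.getD_some] at hkk
        exact (List.Nodup.getElem_inj_iff (FarBAux.cols_nodup p)).1 hkk
    have := hE (φ k0) (hφ1 k0 hk0)
    omega
  obtain ⟨k, hk, k', hk', hkk, hne⟩ := hneq
  have hk1 : k < S' := Finset.mem_range.1 (Finset.mem_filter.1 hk).1
  have hk1' : k' < S' := Finset.mem_range.1 (Finset.mem_filter.1 hk').1
  rcases lt_or_gt_of_ne hne with hlt2 | hlt2
  · -- `φ k < φ k'`
    have h1 := hφ2 k hk
    have h2 := hφ3 k' hk'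
    have h3 : (U k').length + (Yf k').length =
        (U k).length + ∑ j ∈ Finset.Ico k (k' + 1), (Yf j).length := by
      rw [hUlen, hUlen]
      have e1 : ∑ j ∈ Finset.range (k' + 1), (Yf j).length =
          ∑ j ∈ Finset.range k, (Yf j).length + ∑ j ∈ Finset.Ico k (k' + 1), (Yf j).length := by
        rw [Finset.sum_range_add_sum_Ico _ (by omega)]
      rw [Finset.sum_range_succ] at e1
      omega
    have h4 : (φ k * S' + S' + k') * n ≤ (φ k' * S' + k') * n := by
      refine Nat.mul_le_mul_right n ?_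
      have : (φ k + 1) * S' ≤ φ k' * S' := Nat.mul_le_mul_right _ hlt2
      rw [Nat.add_mul, Nat.one_mul] at this
      omega
    have h5 : (φ k * S' + S' + k') * n < (φ k * S' + k + 1) * n +
        ∑ j ∈ Finset.Ico k (k' + 1), (Yf j).length := by
      omega
    have h5r : ((φ k : ℝ) * S' + S' + k') * n < ((φ k : ℝ) * S' + k + 1) * n +
        ∑ j ∈ Finset.Ico k (k' + 1), ((Yf j).length : ℝ) := by
      exact_mod_cast h5
    have h6 : ∑ j ∈ Finset.Ico k (k' + 1), (((Yf j).length : ℝ) - n) ≤
        ∑ j ∈ Finset.Ico k (k' + 1), e j := by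
      refine Finset.sum_le_sum fun j hj => ?_
      rw [Finset.mem_Ico] at hj
      have h7 : ((Z j).length : ℝ) ≤ n := by exact_mod_cast hZn j (by omega)
      rw [he]; linarith
    have h8 : ∑ j ∈ Finset.Ico k (k' + 1), e j ≤ ∑ j ∈ Finset.range S', e j := by
      refine Finset.sum_le_sum_of_subset_of_nonneg ?_ fun j hj _ => he0 j (Finset.mem_range.1 hj)
      intro j hj
      rw [Finset.mem_Ico] at hj
      exact Finset.mem_range.2 (by omega)
    rw [Finset.sum_sub_distrib, Finset.sum_const, Nat.card_Ico, nsmul_eq_mul] at h6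
    have h9 : ((k' + 1 - k : ℕ) : ℝ) = (k' : ℝ) + 1 - k := by
      rw [Nat.cast_sub (by omega)]; push_cast; ring
    rw [h9] at h6
    have h10 : (8 : ℝ) ≤ S' := by exact_mod_cast hS8
    have h11 : ((S' : ℝ) - 2) * n ≤ ∑ j ∈ Finset.range S', e j := by
      nlinarith
    have h12 : 3 / 4 * a * ((S' : ℝ) * n) ≤ ((S' : ℝ) - 2) * n := by
      have h13 : 3 / 4 * a * ((S' : ℝ) * n) ≤ 3 / 4 * ((S' : ℝ) * n) := by
        have : a * ((S' : ℝ) * n) ≤ 1 * ((S' : ℝ) * n) := mul_le_mul_of_nonneg_right ha1 hSn0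
        linarith
      have h14 : 3 / 4 * ((S' : ℝ) * n) ≤ ((S' : ℝ) - 2) * n := by
        have : (3 / 4 * (S' : ℝ)) * n ≤ ((S' : ℝ) - 2) * n :=
          mul_le_mul_of_nonneg_right (by linarith) hn0
        linarith
      linarith
    linarith
  · -- `φ k' < φ k`
    have h1 := hφ3 k hk
    have h2 := hφ2 k' hk'
    have h3 := hUmono k k' hkk
    have h4 : (φ k * S' + k) * n < (φ k' * S' + k' + 1) * n := by omega
    have h5 : φ k * S' + k < φ k' * S' + k' + 1 := Nat.lt_of_mul_lt_mul_right h4
    have h6 : (φ k' + 1) * S' ≤ φ k * S' := Nat.mul_le_mul_right _ hlt2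
    rw [Nat.add_mul, Nat.one_mul] at h6
    omega

end Crest.Agent.R210
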