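import Crest.Agent.R210.Defs
import Crest.Agent.R210.FarB
import Crest.Agent.R210.BuildA

/-! # Piece FAR-C: all rows (induction over the rows from `far_row`)

Generalise: for `z <+ (List.range' l₀ k).flatMap row` (or `(List.range M).drop l₀`) and `z <+ y`, `Y = u ++ y` (`y` a suffix of `Y`):
`(3/4) a k S' n ≤ k S' n + |y| - 2|z|`; split off the first row: `z = z₁ ++ z₂`, `y = y₁ ++ y₂`. -/

set_option autoImplicit false

namespace Crest.Agent.R210

theorem far_step_aux {s : ℕ} (p : Fin s) (M n : ℕ) (hs : 9 ≤ s) (a : ℝ) (ha0 : 0 ≤ a) (ha1 : a ≤ 1)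
    (β γ : ℕ → Fin s → List (List ℕ)) (hβ : ∀ l i, (β l i).length = n)
    (hγ : ∀ l i, (γ l i).length = n) (E : ℕ → ℕ → Fin s → Prop)
    [∀ l l' i, Decidable (E l l' i)]
    (hE : ∀ l < M, ∀ l' < M, 4 * (Finset.univ.filter (fun i => i ≠ p ∧ E l l' i)).card ≤ s - 1)
    (hF : ∀ l < M, ∀ l' < M, ∀ i, i ≠ p → ¬ E l l' i → ∀ z : List (List ℕ),
      z.Sublist (β l i) → z.Sublist (γ l' i) → (z.length : ℝ) ≤ (1 - a) * n)
    (ls : List ℕ) (hls : ∀ l ∈ ls, l < M) :
    ∀ (u y z : List (List ℕ)), word M p (fun l i => (γ l i).map (i.val :: ·)) = u ++ y →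
      z.Sublist (ls.flatMap fun l => (cols p).flatMap fun i => (β l i).map (i.val :: ·)) →
      z.Sublist y →
      3 / 4 * a * (ls.length * (((s - 1 : ℕ) : ℝ) * n)) ≤
        ls.length * (((s - 1 : ℕ) : ℝ) * n) + y.length - 2 * z.length := by
  induction ls with
  | nil =>
    intro u y z _ hz _
    have : z = [] := by simpa using hz
    subst this
    simp
  | cons l ls ih =>
    intro u y z hY hz hzy
    rw [List.flatMap_cons, List.sublist_append_iff] at hz
    obtain ⟨z1, z2, rfl, h1, h2⟩ := hz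
    obtain ⟨y1, y2, rfl, h3, h4⟩ := List.append_sublist_iff.1 hzy
    have hl : l < M := hls l (by simp)
    have r1 := far_row p M n hs a ha0 ha1 (β l) γ (hβ l) hγ (E l) (hE l hl) (hF l hl) u y1 y2 z1
      (by rw [hY, List.append_assoc]) h1 h3
    have r2 := ih (fun l' hl' => hls l' (by simp [hl'])) (u ++ y1) y2 z2
      (by rw [hY, List.append_assoc]) h2 h4
    rw [List.length_cons, List.length_append, List.length_append]
    push_cast
    linarith

theorem far_step {s : ℕ} (p : Fin s) (M n : ℕ) (hs : 9 ≤ s) (a : ℝ) (ha0 : 0 ≤ a) (ha1 : a ≤ 1)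
    (β γ : ℕ → Fin s → List (List ℕ)) (hβ : ∀ l i, (β l i).length = n)
    (hγ : ∀ l i, (γ l i).length = n) (E : ℕ → ℕ → Fin s → Prop)
    [∀ l l' i, Decidable (E l l' i)]
    (hE : ∀ l < M, ∀ l' < M, 4 * (Finset.univ.filter (fun i => i ≠ p ∧ E l l' i)).card ≤ s - 1)
    (hF : ∀ l < M, ∀ l' < M, ∀ i, i ≠ p → ¬ E l l' i → ∀ z : List (List ℕ),
      z.Sublist (β l i) → z.Sublist (γ l' i) → (z.length : ℝ) ≤ (1 - a) * n) :
    ∀ z : List (List ℕ), z.Sublist (word M p fun l i => (β l i).map (i.val :: ·)) →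
      z.Sublist (word M p fun l i => (γ l i).map (i.val :: ·)) →
      (z.length : ℝ) ≤ (1 - 3 / 8 * a) * ((M * (s - 1) * n : ℕ) : ℝ) := by
  intro z hz1 hz2
  have h := far_step_aux p M n hs a ha0 ha1 β γ hβ hγ E hE hF (List.range M)
    (fun l hl => List.mem_range.1 hl) [] _ z (by simp) hz1 hz2
  rw [word_length M p _ n (fun l i => by rw [List.length_map, hγ]), List.length_range] at h
  push_cast
  push_cast at h
  nlinarith

end Crest.Agent.R210
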