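import Crest.Agent.R210.Defs

/-! # Piece MOD: the moduli

`q i` = a prime in `(2^(s+i), 2^(s+i+1)]`, `i < s` (Bertrand: `Nat.exists_prime_lt_and_le_two_mul`). -/

set_option autoImplicit false

namespace Crest.Agent.R210

theorem exists_moduli (s : ℕ) : ∃ q : Fin s → ℕ,
    (Pairwise fun i j => Nat.Coprime (q i) (q j)) ∧ ∀ i, 2 ^ s < q i ∧ q i ≤ 2 ^ (2 * s) := by
  have h : ∀ i : Fin s, ∃ p, p.Prime ∧ 2 ^ (s + (i : ℕ)) < p ∧ p ≤ 2 * 2 ^ (s + (i : ℕ)) :=
    fun i => Nat.exists_prime_lt_and_le_two_mul _ (by positivity)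
  choose q hp hlo hhi using h
  have hlt : ∀ i j : Fin s, i < j → q i < q j := by
    intro i j hij
    have h1 : 2 * 2 ^ (s + (i : ℕ)) = 2 ^ (s + (i : ℕ) + 1) := by ring
    have h2 : 2 ^ (s + (i : ℕ) + 1) ≤ 2 ^ (s + (j : ℕ)) :=
      Nat.pow_le_pow_right (by norm_num) (by have : (i : ℕ) < j := hij; omega)
    have := hhi i
    have := hlo j
    omega
  refine ⟨q, ?_, ?_⟩
  · intro i j hij
    apply (Nat.coprime_primes (hp i) (hp j)).mpr
    rcases lt_or_gt_of_ne hij with h | h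
    · exact (hlt i j h).ne
    · exact (hlt j i h).ne'
  · intro i
    constructor
    · exact lt_of_le_of_lt (Nat.pow_le_pow_right (by norm_num) (by omega)) (hlo i)
    · refine (hhi i).trans ?_
      have h1 : 2 * 2 ^ (s + (i : ℕ)) = 2 ^ (s + (i : ℕ) + 1) := by ring
      rw [h1]
      exact Nat.pow_le_pow_right (by norm_num) (by have := i.2; omega)

/-- the product of the `q i` dividing `D` divides `D` (pairwise coprime), so `2^(s * card) ≤ |D|`. -/
theorem count_dvd {s : ℕ} (q : Fin s → ℕ) (hcop : Pairwise fun i j => Nat.Coprime (q i) (q j))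
    (hq : ∀ i, 2 ^ s < q i) (D : ℤ) (hD : D ≠ 0) (T : ℕ) (hT : |D| ≤ 2 ^ T) :
    s * (Finset.univ.filter (fun i => (q i : ℤ) ∣ D)).card ≤ T := by
  set F := Finset.univ.filter (fun i => (q i : ℤ) ∣ D) with hF
  have hdvd : (∏ i ∈ F, (q i : ℤ)) ∣ D := by
    apply Finset.prod_dvd_of_coprime
    · intro i _ j _ hij
      exact Nat.isCoprime_iff_coprime.mpr (hcop hij)
    · intro i hi
      exact (Finset.mem_filter.mp hi).2
  have hle : (∏ i ∈ F, (q i : ℤ)) ≤ |D| :=
    Int.le_of_dvd (abs_pos.mpr hD) ((dvd_abs _ _).mpr hdvd)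
  have hge : ((2 : ℤ) ^ s) ^ F.card ≤ ∏ i ∈ F, (q i : ℤ) := by
    rw [← Finset.prod_const]
    apply Finset.prod_le_prod
    · intro i _; positivity
    · intro i _
      exact_mod_cast (hq i).le
  have h2 : (2 : ℤ) ^ (s * F.card) ≤ 2 ^ T := by
    rw [pow_mul]
    exact hge.trans (hle.trans hT)
  exact (pow_le_pow_iff_right₀ (by norm_num : (1 : ℤ) < 2)).mp h2

end Crest.Agent.R210
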