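import Crest.Agent.R210.Defs
import Crest.Agent.R210.BuildA
import Crest.Agent.R210.FarStep
import Crest.Agent.R210.Moduli

/-! # Piece FAR-D: the induction step for `FarFam`

For `ω = (ω, v)`, `y ≠ y'` use `far_step` with `β l i = X i (ω i) (idx q p v y.val l i)`,
`γ l i = X i (ω i) (idx q p v y'.val l i)`, `E l l' i := idx q p v y.val l i = idx q p v y'.val l' i`.
For `i ≠ p` (multiply by the unit `q_p` of `ZMod (q i)`): `E l l' i ↔ (q i : ℤ) ∣ D`, `D = (y.val - y'.val) + q_p (l - l')`,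
`D ≠ 0` because `0 < |y.val - y'.val| < q_p`, `|D| ≤ q_p * M ≤ 2^(2 s + 4 s g)`, so by `count_dvd` the number of those `i` is
`≤ 4 g + 2`, and `4 (4 g + 2) ≤ 24 g - 1` for `g ≥ 2`. -/

set_option autoImplicit false

namespace Crest.Agent.R210

theorem far_lev {s : ℕ} (q : Fin s → ℕ) [∀ i, NeZero (q i)]
    (hcop : Pairwise fun i j => Nat.Coprime (q i) (q j)) (g n : ℕ) (hg : 2 ≤ g)
    (hs : s = 24 * g) (hq : ∀ i, 2 ^ s < q i ∧ q i ≤ 2 ^ (2 * s))
    (a : ℝ) (ha0 : 0 ≤ a) (ha1 : a ≤ 1) (Ω : Fin s → Type)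
    (X : ∀ i, Ω i → ZMod (q i) → List (List ℕ)) (hn : ∀ i ω y, (X i ω y).length = n)
    (hX : ∀ i, FarFam (q i) n a (X i)) (p : Fin s) :
    FarFam (q p) (2 ^ (4 * s * g) * (s - 1) * n) (3 / 8 * a)
      (fun (ω : (∀ i, Ω i) × (∀ i, ZMod (q i))) (y : ZMod (q p)) =>
        fam q (2 ^ (4 * s * g)) p (fun i b => (X i (ω.1 i) b).map (i.val :: ·)) ω.2 y.val) := by
  classical
  intro ω y y' hyy z hz1 hz2
  refine far_step p (2 ^ (4 * s * g)) n (by omega) a ha0 ha1
    (fun l i => X i (ω.1 i) (idx q p ω.2 y.val l i)) (fun l i => X i (ω.1 i) (idx q p ω.2 y'.val l i))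
    (fun l i => hn _ _ _) (fun l i => hn _ _ _)
    (fun l l' i => idx q p ω.2 y.val l i = idx q p ω.2 y'.val l' i) ?_ ?_ z hz1 hz2
  · intro l hl l' hl'
    set D : ℤ := ((y.val : ℤ) - (y'.val : ℤ)) + (q p : ℤ) * ((l : ℤ) - (l' : ℤ)) with hD
    have hv1 : y.val < q p := ZMod.val_lt y
    have hv2 : y'.val < q p := ZMod.val_lt y'
    have hvne : (y.val : ℤ) ≠ (y'.val : ℤ) := by
      intro h
      exact hyy (ZMod.val_injective (q p) (by exact_mod_cast h))
    have hD0 : D ≠ 0 := by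
      intro h0
      have hdvd : (q p : ℤ) ∣ ((y.val : ℤ) - (y'.val : ℤ)) := by
        refine ⟨-((l : ℤ) - (l' : ℤ)), ?_⟩
        rw [hD] at h0
        linarith
      have : ((y.val : ℤ) - (y'.val : ℤ)) = 0 := by
        refine Int.eq_zero_of_abs_lt_dvd hdvd ?_
        rw [abs_lt]; constructor <;> omega
      omega
    have hqp : (q p : ℤ) ≤ 2 ^ (2 * s) := by exact_mod_cast (hq p).2
    have hqp0 : (0 : ℤ) < q p := by
      have := (hq p).1
      have h2 : 0 < q p := by omega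
      exact_mod_cast h2
    have hT : |D| ≤ 2 ^ (2 * s + 4 * s * g) := by
      have h1 : |D| ≤ (q p : ℤ) * 2 ^ (4 * s * g) := by
        have hlM : (l : ℤ) < 2 ^ (4 * s * g) := by exact_mod_cast hl
        have hlM' : (l' : ℤ) < 2 ^ (4 * s * g) := by exact_mod_cast hl'
        have hl0 : (0 : ℤ) ≤ l := by positivity
        have hl0' : (0 : ℤ) ≤ l' := by positivity
        have hy0 : (0 : ℤ) ≤ y.val := by positivity
        have hy0' : (0 : ℤ) ≤ y'.val := by positivity
        have a1 : (q p : ℤ) * ((l : ℤ) - l') ≤ (q p : ℤ) * (2 ^ (4 * s * g) - 1) :=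
          mul_le_mul_of_nonneg_left (by omega) hqp0.le
        have a2 : (q p : ℤ) * (-(2 ^ (4 * s * g) - 1)) ≤ (q p : ℤ) * ((l : ℤ) - l') :=
          mul_le_mul_of_nonneg_left (by omega) hqp0.le
        have a3 : (y.val : ℤ) < q p := by exact_mod_cast hv1
        have a4 : (y'.val : ℤ) < q p := by exact_mod_cast hv2
        rw [abs_le]
        constructor <;> rw [hD] <;> nlinarith
      calc |D| ≤ (q p : ℤ) * 2 ^ (4 * s * g) := h1
        _ ≤ 2 ^ (2 * s) * 2 ^ (4 * s * g) := mul_le_mul_of_nonneg_right hqp (by positivity)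
        _ = 2 ^ (2 * s + 4 * s * g) := by rw [pow_add]
    have hc := count_dvd q hcop (fun i => (hq i).1) D hD0 (2 * s + 4 * s * g) hT
    have hsub : (Finset.univ.filter (fun i => i ≠ p ∧
        idx q p ω.2 y.val l i = idx q p ω.2 y'.val l' i)).card ≤
        (Finset.univ.filter (fun i => (q i : ℤ) ∣ D)).card := by
      refine Finset.card_le_card fun i hi => ?_
      rw [Finset.mem_filter] at hi ⊢
      refine ⟨hi.1, ?_⟩
      obtain ⟨_, hip, hE⟩ := hi
      have hu : ((q p : ℕ) : ZMod (q i)) * ((q p : ℕ) : ZMod (q i))⁻¹ = 1 :=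
        ZMod.coe_mul_inv_eq_one _ (hcop (Ne.symm hip))
      rw [← ZMod.intCast_zmod_eq_zero_iff_dvd, hD]
      simp only [idx] at hE
      push_cast
      have h1 : (y.val : ZMod (q i)) * ((q p : ℕ) : ZMod (q i))⁻¹ + (l : ZMod (q i)) =
          (y'.val : ZMod (q i)) * ((q p : ℕ) : ZMod (q i))⁻¹ + (l' : ZMod (q i)) := by
        rw [add_assoc, add_assoc] at hE
        exact add_left_cancel hE
      have h2 := congrArg (fun t => ((q p : ℕ) : ZMod (q i)) * t) h1
      simp only [mul_add] at h2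
      have e1 : ∀ t : ZMod (q i), ((q p : ℕ) : ZMod (q i)) * (t * ((q p : ℕ) : ZMod (q i))⁻¹) = t := by
        intro t
        calc ((q p : ℕ) : ZMod (q i)) * (t * ((q p : ℕ) : ZMod (q i))⁻¹)
            = (((q p : ℕ) : ZMod (q i)) * ((q p : ℕ) : ZMod (q i))⁻¹) * t := by ring
          _ = t := by rw [hu, one_mul]
      rw [e1, e1] at h2
      linear_combination h2
    have h3 : s * (Finset.univ.filter (fun i => i ≠ p ∧
        idx q p ω.2 y.val l i = idx q p ω.2 y'.val l' i)).card ≤ 2 * s + 4 * s * g :=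
      le_trans (Nat.mul_le_mul_left _ hsub) hc
    have h4 : (Finset.univ.filter (fun i => i ≠ p ∧
        idx q p ω.2 y.val l i = idx q p ω.2 y'.val l' i)).card ≤ 2 + 4 * g := by
      have h5 : 2 * s + 4 * s * g = s * (2 + 4 * g) := by ring
      rw [h5] at h3
      exact Nat.le_of_mul_le_mul_left h3 (by omega)
    omega
  · intro l _ l' _ i _ hne z' h1 h2
    exact hX i (ω.1 i) _ _ hne z' h1 h2

end Crest.Agent.R210
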