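import Crest.Agent.R210.Defs
import Crest.Agent.R210.Av

/-! # Piece FOUR-B: Bochner representation of the averaged kernel

`A t = ∑_v N v (v + t)`, `A 0 = 0`, `A (-t) = A t` (symmetry + shift of `v`).
`c χ = -(1/|G|²) ∑_t A t * (χ t).re` for `χ ≠ 0` (the trivial character is `0` (or `1`) : `AddChar G ℂ`), `c 0 = 0`.
`c χ ≥ 0`: for `χ` nontrivial `∑_u χ u = 0` (`AddChar.sum_eq_zero_of_ne_one` or similar), so `Ker.neg` (with `ι = G`, `s = univ`,
`x u = v + u`) for `c u = (χ u).re` and `c u = (χ u).im` and sum over `v` gives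
`∑_{u,w} ((χ u).re (χ w).re + (χ u).im (χ w).im) A (w - u) = |G| ∑_t (χ t).re A t ≤ 0`.
Inversion: `AddChar.sum_apply_eq_ite : ∑ ψ : AddChar G ℂ, ψ a = if a = 0 then card G else 0`. -/

set_option autoImplicit false

namespace Crest.Agent.R210

namespace KerReprAux

variable {G : Type} [AddCommGroup G] [Fintype G] [DecidableEq G]

omit [DecidableEq G] in
theorem sub_re (χ : AddChar G ℂ) (u w : G) :
    (χ (w - u)).re = (χ u).re * (χ w).re + (χ u).im * (χ w).im := by
  rw [sub_eq_add_neg, AddChar.map_add_eq_mul, AddChar.map_neg_eq_conj]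
  simp only [Complex.mul_re, Complex.conj_re, Complex.conj_im]
  ring

omit [Fintype G] [DecidableEq G] in
theorem add_re (χ : AddChar G ℂ) (u w : G) :
    (χ (u + w)).re = (χ u).re * (χ w).re - (χ u).im * (χ w).im := by
  rw [AddChar.map_add_eq_mul]
  simp only [Complex.mul_re]

theorem sum_re (a : G) : ∑ χ : AddChar G ℂ, (χ a).re = if a = 0 then (Fintype.card G : ℝ) else 0 := by
  have h := AddChar.sum_apply_eq_ite a
  have h2 := congrArg Complex.re h
  rw [Complex.re_sum] at h2
  rw [h2]
  split_ifs <;> simp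

theorem sum_re_mul (t u : G) : ∑ χ : AddChar G ℂ, (χ u).re * (χ t).re =
    (Fintype.card G : ℝ) / 2 * ((if u = t then 1 else 0) + (if u = -t then 1 else 0)) := by
  have h : ∀ χ : AddChar G ℂ, (χ u).re * (χ t).re = ((χ (t - u)).re + (χ (u + t)).re) / 2 := by
    intro χ
    rw [sub_re, add_re]; ring
  rw [Finset.sum_congr rfl (fun χ _ => h χ), ← Finset.sum_div, Finset.sum_add_distrib, sum_re,
    sum_re]
  have e1 : (t - u = 0) ↔ u = t := by rw [sub_eq_zero]; exact eq_comm
  have e2 : (u + t = 0) ↔ u = -t := add_eq_zero_iff_eq_neg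
  simp only [e1, e2]
  split_ifs <;> ring

end KerReprAux

open KerReprAux in
theorem ker_repr {G : Type} [AddCommGroup G] [Fintype G] [DecidableEq G] (N : G → G → ℝ)
    (hN : Ker N) : ∃ c : AddChar G ℂ → ℝ, (∀ χ, 0 ≤ c χ) ∧
      ∀ t, av (fun v => N v (v + t)) = ∑ χ, c χ * (1 - (χ t).re) := by
  classical
  set A : G → ℝ := fun t => ∑ v, N v (v + t) with hA
  have hA0 : A 0 = 0 := by simp [hA, hN.refl]
  have hAneg : ∀ t, A (-t) = A t := by
    intro t
    simp only [hA]
    rw [← Equiv.sum_comp (Equiv.addRight t)]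
    refine Finset.sum_congr rfl fun v _ => ?_
    simp only [Equiv.coe_addRight]
    rw [add_neg_cancel_right, hN.symm]
  have hcard : (0 : ℝ) < Fintype.card G := by exact_mod_cast Fintype.card_pos
  have hneg : ∀ χ : AddChar G ℂ, χ ≠ 0 → ∑ t, A t * (χ t).re ≤ 0 := by
    intro χ hχ
    have hs : ∑ u, χ u = 0 := AddChar.sum_eq_zero_iff_ne_zero.2 hχ
    have hre : ∑ u, (χ u).re = 0 := by
      rw [← Complex.re_sum, hs]; simp
    have him : ∑ u, (χ u).im = 0 := by
      rw [← Complex.im_sum, hs]; simp
    have h1 : ∀ v, ∑ u, ∑ w, (χ u).re * (χ w).re * N (v + u) (v + w) ≤ 0 := fun v =>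
      hN.neg G Finset.univ (fun u => (χ u).re) (fun u => v + u) hre
    have h2 : ∀ v, ∑ u, ∑ w, (χ u).im * (χ w).im * N (v + u) (v + w) ≤ 0 := fun v =>
      hN.neg G Finset.univ (fun u => (χ u).im) (fun u => v + u) him
    have h3 : ∑ v, ∑ u, ∑ w, (χ (w - u)).re * N (v + u) (v + w) ≤ 0 := by
      refine Finset.sum_nonpos fun v _ => ?_
      have := add_nonpos (h1 v) (h2 v)
      rw [← Finset.sum_add_distrib] at this
      refine le_trans (le_of_eq ?_) this
      refine Finset.sum_congr rfl fun u _ => ?_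
      rw [← Finset.sum_add_distrib]
      refine Finset.sum_congr rfl fun w _ => ?_
      rw [sub_re]; ring
    have h4 : ∑ v, ∑ u, ∑ w, (χ (w - u)).re * N (v + u) (v + w) =
        (Fintype.card G : ℝ) * ∑ t, A t * (χ t).re := by
      rw [Finset.sum_comm]
      have h5 : ∀ u, ∑ v, ∑ w, (χ (w - u)).re * N (v + u) (v + w) = ∑ t, A t * (χ t).re := by
        intro u
        rw [Finset.sum_comm]
        rw [← Equiv.sum_comp (Equiv.addRight u)]
        refine Finset.sum_congr rfl fun t _ => ?_
        simp only [Equiv.coe_addRight, add_sub_cancel_right]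
        rw [← Finset.mul_sum, mul_comm]
        congr 1
        simp only [hA]
        rw [← Equiv.sum_comp (Equiv.addRight u) (fun v => N v (v + t))]
        refine Finset.sum_congr rfl fun v _ => ?_
        simp only [Equiv.coe_addRight]
        congr 1
        abel
      rw [Finset.sum_congr rfl (fun u _ => h5 u)]
      simp [Finset.sum_const, Finset.card_univ]
    rw [h4] at h3
    by_contra hcon
    push Not at hcon
    have := mul_pos hcard hcon
    linarith
  refine ⟨fun χ => if χ = 0 then 0 else -(∑ t, A t * (χ t).re) / (Fintype.card G : ℝ) ^ 2,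
    fun χ => ?_, fun t => ?_⟩
  · dsimp only
    split_ifs with h
    · exact le_rfl
    · have := hneg χ h
      have : 0 ≤ -(∑ t, A t * (χ t).re) := by linarith
      positivity
  · have e1 : ∀ χ : AddChar G ℂ, (if χ = 0 then 0 else
        -(∑ t, A t * (χ t).re) / (Fintype.card G : ℝ) ^ 2) * (1 - (χ t).re) =
        -(1 / (Fintype.card G : ℝ) ^ 2) * ((∑ u, A u * (χ u).re) -
          ∑ u, A u * ((χ u).re * (χ t).re)) := by
      intro χ
      split_ifs with h
      · subst h
        simp
      · have : ∑ u, A u * ((χ u).re * (χ t).re) = (∑ u, A u * (χ u).re) * (χ t).re := by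
          rw [Finset.sum_mul]
          refine Finset.sum_congr rfl fun u _ => ?_
          ring
        rw [this]
        ring
    rw [Finset.sum_congr rfl (fun χ _ => e1 χ), ← Finset.mul_sum, Finset.sum_sub_distrib,
      Finset.sum_comm, Finset.sum_comm (s := (Finset.univ : Finset (AddChar G ℂ)))
        (f := fun χ u => A u * ((χ u).re * (χ t).re))]
    simp only [← Finset.mul_sum, sum_re, sum_re_mul]
    have f1 : ∑ x, A x * (if x = 0 then (Fintype.card G : ℝ) else 0) = 0 := by
      simp [hA0]
    have f2 : ∑ u, A u * ((Fintype.card G : ℝ) / 2 *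
        ((if u = t then 1 else 0) + (if u = -t then 1 else 0))) = (Fintype.card G : ℝ) * A t := by
      have : ∀ u, A u * ((Fintype.card G : ℝ) / 2 *
        ((if u = t then 1 else 0) + (if u = -t then 1 else 0))) =
        (Fintype.card G : ℝ) / 2 * ((if u = t then A u else 0) + (if u = -t then A u else 0)) := by
        intro u
        split_ifs <;> ring
      rw [Finset.sum_congr rfl (fun u _ => this u), ← Finset.mul_sum, Finset.sum_add_distrib]
      simp [hAneg]
      ring
    rw [f1, f2]
    unfold av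
    change A t / _ = _
    field_simp
    ring

end Crest.Agent.R210
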