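import Crest.Agent.R210.Defs
import Crest.Agent.R210.Av
import Crest.Agent.R210.KerRepr
import Crest.Agent.R210.CharIneq

/-! # The Fourier inequality (from `ker_repr` and `char_ineq`) -/

set_option autoImplicit false

namespace Crest.Agent.R210

theorem four {s : ℕ} (q : Fin s → ℕ) [∀ i, NeZero (q i)]
    (hcop : Pairwise fun i j => Nat.Coprime (q i) (q j)) (g R : ℕ) (hg : 0 < g) (hR0 : 0 < R)
    (hR : ∀ A : Finset (Fin s), A.card < g → 2 * ∏ i ∈ A, q i ≤ R)
    (N : (∀ i, ZMod (q i)) → (∀ i, ZMod (q i)) → ℝ) (hN : Ker N) (θ : ∀ i, ZMod (q i)) :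
    av (fun v => N v (v + θ)) ≤
      4 / (R : ℝ) * ∑ r ∈ Finset.range R, av (fun v => N v (v + fun i => (r : ZMod (q i)))) +
      2 / (g : ℝ) * ∑ i, av (fun b : ZMod (q i) => av (fun v => N v (v + Pi.single i b))) := by
  obtain ⟨c, hc, hrepr⟩ := ker_repr N hN
  have h1 : ∑ r ∈ Finset.range R, av (fun v => N v (v + fun i => (r : ZMod (q i)))) =
      ∑ χ, c χ * ∑ r ∈ Finset.range R, (1 - (χ (fun i => (r : ZMod (q i)))).re) := by
    simp_rw [hrepr, Finset.mul_sum]
    rw [Finset.sum_comm]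
  have h2 : ∑ i, av (fun b : ZMod (q i) => av (fun v => N v (v + Pi.single i b))) =
      ∑ χ, c χ * ∑ i, av (fun b : ZMod (q i) => 1 - (χ (Pi.single i b)).re) := by
    simp_rw [hrepr, Finset.mul_sum]
    rw [Finset.sum_comm]
    refine Finset.sum_congr rfl fun i _ => ?_
    rw [av_sum]
    refine Finset.sum_congr rfl fun χ _ => ?_
    rw [av_mul_left]
  rw [h1, h2, hrepr, Finset.mul_sum, Finset.mul_sum, ← Finset.sum_add_distrib]
  refine Finset.sum_le_sum fun χ _ => ?_
  have := mul_le_mul_of_nonneg_left (char_ineq q hcop g R hg hR0 hR χ θ) (hc χ)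
  linarith

end Crest.Agent.R210
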