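import Crest.Agent.R210.Defs
import Crest.Agent.R210.Av
import Crest.Agent.R210.EDBasic
import Crest.Agent.R210.Four
import Crest.Agent.R210.BuildA
import Crest.Agent.R210.BuildB
import Crest.Agent.R210.BuildC

/-! # The induction step for `Fool` (owner helper14) -/

set_option autoImplicit false
open Crest.GeometryTopology.EditDistance

namespace Crest.Agent.R210

theorem Fool.mono {Q n : ℕ} [NeZero Q] {Ω : Type} [Fintype Ω] {κ κ' : ℝ}
    {X : Ω → ZMod Q → List (List ℕ)} (h : Fool Q n κ X) (hk : κ ≤ κ') : Fool Q n κ' X := by
  intro L enc hL N lam hN hlam hLip a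
  refine (h L enc hL N lam hN hlam hLip a).trans ?_
  gcongr

theorem Ker.pull {X Y : Type} {N : X → X → ℝ} (hN : Ker N) (F : Y → X) :
    Ker (fun x y => N (F x) (F y)) where
  refl x := hN.refl _
  symm x y := hN.symm _ _
  tri x y z := hN.tri _ _ _
  neg ι s c x hc := hN.neg ι s c (fun i => F (x i)) hc

theorem fool_step {s : ℕ} (q : Fin s → ℕ) [∀ i, NeZero (q i)]
    (hcop : Pairwise fun i j => Nat.Coprime (q i) (q j)) (g R M n : ℕ) (hg : 0 < g) (hR0 : 0 < R)
    (hRM : R ≤ M) (hqM : ∀ i, q i ≤ M)
    (hR : ∀ A : Finset (Fin s), A.card < g → 2 * ∏ i ∈ A, q i ≤ R)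
    (Ω : Fin s → Type) [∀ i, Fintype (Ω i)] [∀ i, Nonempty (Ω i)]
    (X : ∀ i, Ω i → ZMod (q i) → List (List ℕ)) (hn : ∀ i ω y, (X i ω y).length = n)
    (κ : ℝ) (hκ : 0 ≤ κ) (hX : ∀ i, Fool (q i) n κ (X i)) (p : Fin s) :
    Fool (Ω := (∀ i, Ω i) × (∀ i, ZMod (q i))) (q p) (M * (s - 1) * n)
      (4 / (g : ℝ) * κ + 6 * R / M)
      (fun ω y => fam q M p (fun i b => (X i (ω.1 i) b).map (i.val :: ·)) ω.2 y.val) := by
  intro L enc hL N lam hN hlam hLip a
  have hM : 0 < M := hR0.trans_le hRM
  -- notation
  let U : (∀ i, Ω i) → ∀ i, ZMod (q i) → List Bool :=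
    fun ω i b => (X i (ω i) b).flatMap (fun t => enc (i.val :: t))
  let F : (∀ i, Ω i) → (∀ i, ZMod (q i)) → ZMod (q p) → List Bool :=
    fun ω v y => fam q M p (U ω) v y.val
  have hUlen : ∀ ω i b, (U ω i b).length = n * L := by
    intro ω i b
    simp only [U, List.length_flatMap, hL]
    rw [List.map_const', List.sum_replicate, hn, smul_eq_mul]
  have hFlen : ∀ ω v y, (F ω v y).length = M * (s - 1) * n * L := by
    intro ω v y
    rw [fam_length q M p (U ω) v y.val (n * L) (fun i b => hUlen ω i b), mul_assoc (M * (s - 1))]
  have hXF : ∀ (ω : ∀ i, Ω i) (v : ∀ i, ZMod (q i)) (k : ℕ),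
      (fam q M p (fun i b => (X i (ω i) b).map (i.val :: ·)) v k).flatMap enc =
        fam q M p (U ω) v k := by
    intro ω v k
    rw [fam_flatMap]
    congr 1
    funext i b
    simp only [U, List.flatMap_map]
  -- nonnegativity of the kernel
  have hNnn : ∀ W W', 0 ≤ N W W' := by
    intro W W'
    have h1 := hN.tri W W' W
    have h2 := hN.refl W
    have h3 := hN.symm W' W
    linarith
  set θ : ∀ i, ZMod (q i) := fun i => ((a.val : ℕ) : ZMod (q i)) * ((q p : ℕ) : ZMod (q i))⁻¹ with hθ
  -- the unit
  set u : ℝ := lam * (q p : ℝ) * (((s - 1 : ℕ) : ℝ) * n * L) with hu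
  have hu0 : 0 ≤ u := by positivity
  -- step 1 : relabelling = phase shift up to the wrapped words
  have step1 : ∀ ω v, N (fun y => F ω v y)
      (fun y => fam q M p (U ω) v (y + a).val) ≤ N (F ω v) (F ω (v + θ)) + 2 * u := by
    intro ω v
    refine (hN.tri _ (F ω (v + θ)) _).trans ?_
    gcongr
    refine (hLip _ _ (hFlen ω (v + θ)) ?_).trans ?_
    · intro y
      exact (fam_length q M p (U ω) v (y + a).val (n * L) (fun i b => hUlen ω i b)).trans
        (mul_assoc (M * (s - 1)) n L).symm
    · have hone : ∀ y : ZMod (q p), (editDist (F ω (v + θ) y)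
          (fam q M p (U ω) v (y + a).val) : ℝ) ≤ 2 * (((s - 1 : ℕ) : ℝ) * n * L) := by
        intro y
        have e1 : F ω (v + θ) y = fam q M p (U ω) v (y.val + a.val) := by
          rw [fam_shift]
        rw [e1]
        rcases lt_or_ge (y.val + a.val) (q p) with hlt | hge
        · rw [ZMod.val_add_of_lt hlt, ed_self]
          simp only [Nat.cast_zero]
          positivity
        · have e2 : y.val + a.val = (y + a).val + q p := by
            rw [ZMod.val_add_val_of_le hge]
          rw [e2]
          have := fam_wrap q hcop M hM p (U ω) v (y + a).val (n * L) (fun i b => hUlen ω i b)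
          calc (editDist _ _ : ℝ) ≤ ((2 * (s - 1) * (n * L) : ℕ) : ℝ) := by exact_mod_cast this
            _ = 2 * (((s - 1 : ℕ) : ℝ) * n * L) := by push_cast; ring
      calc lam * ∑ y, (editDist (F ω (v + θ) y) (fam q M p (U ω) v (y + a).val) : ℝ)
          ≤ lam * ∑ _y : ZMod (q p), 2 * (((s - 1 : ℕ) : ℝ) * n * L) := by
            gcongr with y _
            exact hone y
        _ = 2 * u := by
            rw [Finset.sum_const, Finset.card_univ, ZMod.card, nsmul_eq_mul, hu]
            ring
  -- step 3 : rotations
  have step3 : ∀ ω v, ∀ r ∈ Finset.range R, N (F ω v) (F ω (v + fun i => (r : ZMod (q i)))) ≤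
      2 * r * u := by
    intro ω v r hr
    have hrM : r ≤ M := ((Finset.mem_range.1 hr).le).trans hRM
    refine (hLip _ _ (hFlen ω v) (hFlen ω _)).trans ?_
    calc lam * ∑ y, (editDist (F ω v y) (F ω (v + fun i => (r : ZMod (q i))) y) : ℝ)
        ≤ lam * ∑ _y : ZMod (q p), 2 * r * (((s - 1 : ℕ) : ℝ) * n * L) := by
          gcongr with y _
          have := fam_rot q M p (U ω) v y.val (n * L) (fun i b => hUlen ω i b) r hrM
          calc (editDist (F ω v y) (F ω (v + fun i => (r : ZMod (q i))) y) : ℝ)
              ≤ ((2 * r * (s - 1) * (n * L) : ℕ) : ℝ) := by exact_mod_cast this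
            _ = 2 * r * (((s - 1 : ℕ) : ℝ) * n * L) := by push_cast; ring
      _ = 2 * r * u := by
          rw [Finset.sum_const, Finset.card_univ, ZMod.card, nsmul_eq_mul, hu]
          ring
  -- step 4 : one column
  have step4 : ∀ i, ∀ (v : ∀ i, ZMod (q i)) (b : ZMod (q i)),
      av (fun ω => N (F ω v) (F ω (v + Pi.single i b))) ≤
        if i = p then 0 else κ * (lam * (q p) * (2 * M)) * L * n := by
    intro i v b
    split_ifs with hip
    · subst hip
      refine le_of_eq ?_
      have : (fun ω => N (F ω v) (F ω (v + Pi.single i b))) = fun _ => 0 := by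
        funext ω
        have : F ω (v + Pi.single i b) = F ω v := by
          funext y
          exact fam_single_self q M i (U ω) v b y.val
        rw [this, hN.refl]
      rw [this, av_const]
    · refine av_pi_le i _ _ fun ω => ?_
      -- the kernel for the family in column i
      let Φ : (ZMod (q i) → List Bool) → ZMod (q p) → List Bool :=
        fun W y => fam q M p (Function.update (U ω) i W) v y.val
      have hΦlen : ∀ W : ZMod (q i) → List Bool, (∀ c, (W c).length = n * L) → ∀ y,
          (Φ W y).length = M * (s - 1) * n * L := by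
        intro W hW y
        refine (fam_length q M p _ v y.val (n * L) ?_).trans (mul_assoc (M * (s - 1)) n L).symm
        intro j c
        by_cases hj : j = i
        · subst hj
          rw [Function.update_self]
          exact hW c
        · rw [Function.update_of_ne hj]
          exact hUlen ω j c
      have hF := hX i L (fun t => enc (i.val :: t)) (fun t => hL _)
        (fun W W' => N (Φ W) (Φ W')) (lam * (q p) * ((M / q i : ℕ) + 1)) (hN.pull Φ)
        (by positivity) (by
          intro W W' hW hW'
          refine (hLip _ _ (hΦlen W hW) (hΦlen W' hW')).trans ?_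
          calc lam * ∑ y, (editDist (Φ W y) (Φ W' y) : ℝ)
              ≤ lam * ∑ _y : ZMod (q p), (((M / q i : ℕ) : ℝ) + 1) *
                  ∑ c, (editDist (W c) (W' c) : ℝ) := by
                gcongr with y _
                have := fam_col q M p (U ω) v i W W' y.val
                exact_mod_cast this
            _ = lam * (q p) * ((M / q i : ℕ) + 1) * ∑ c, (editDist (W c) (W' c) : ℝ) := by
                rw [Finset.sum_const, Finset.card_univ, ZMod.card, nsmul_eq_mul]
                ring) b
      have e1 : ∀ t : Ω i, F (Function.update ω i t) v =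
          Φ (fun c => (X i t c).flatMap (fun t => enc (i.val :: t))) := by
        intro t
        have hU : U (Function.update ω i t) =
            Function.update (U ω) i (fun c => (X i t c).flatMap (fun t => enc (i.val :: t))) := by
          funext j
          by_cases hj : j = i
          · subst hj
            rw [Function.update_self]
            funext c
            simp only [U, Function.update_self]
          · rw [Function.update_of_ne hj]
            funext c
            simp only [U, Function.update_of_ne hj]
        funext y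
        simp only [F, Φ, hU]
      have e2 : ∀ t : Ω i, F (Function.update ω i t) (v + Pi.single i b) =
          Φ (fun c => (X i t (c + b)).flatMap (fun t => enc (i.val :: t))) := by
        intro t
        funext y
        have hU : U (Function.update ω i t) =
            Function.update (U ω) i (fun c => (X i t c).flatMap (fun t => enc (i.val :: t))) := by
          funext j
          by_cases hj : j = i
          · subst hj
            rw [Function.update_self]
            funext c
            simp only [U, Function.update_self]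
          · rw [Function.update_of_ne hj]
            funext c
            simp only [U, Function.update_of_ne hj]
        simp only [F, Φ]
        rw [fam_single, hU, Function.update_idem, Function.update_self]
      calc av (fun t => N (F (Function.update ω i t) v)
            (F (Function.update ω i t) (v + Pi.single i b)))
          = av (fun t => N (Φ (fun c => (X i t c).flatMap (fun t => enc (i.val :: t))))
              (Φ (fun c => (X i t (c + b)).flatMap (fun t => enc (i.val :: t))))) := by
            congr 1
            funext t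
            rw [e1, e2]
        _ ≤ κ * (lam * (q p) * ((M / q i : ℕ) + 1)) * L * (q i) * n := hF
        _ = κ * (lam * (q p) * (((M / q i : ℕ) + 1) * (q i))) * L * n := by ring
        _ ≤ κ * (lam * (q p) * (2 * M)) * L * n := by
            have h1 : (M / q i + 1) * q i ≤ 2 * M := by
              have := Nat.div_mul_le_self M (q i)
              have := hqM i
              nlinarith
            have h2 : (((M / q i : ℕ) : ℝ) + 1) * (q i) ≤ 2 * M := by exact_mod_cast h1
            exact mul_le_mul_of_nonneg_right (mul_le_mul_of_nonneg_right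
              (mul_le_mul_of_nonneg_left (mul_le_mul_of_nonneg_left h2 (by positivity)) hκ)
              (by positivity)) (by positivity)
  -- assembly
  have hav : av (fun ω : (∀ i, Ω i) × (∀ i, ZMod (q i)) =>
      N (fun y => (fam q M p (fun i b => (X i (ω.1 i) b).map (i.val :: ·)) ω.2 y.val).flatMap enc)
        (fun y => (fam q M p (fun i b => (X i (ω.1 i) b).map (i.val :: ·)) ω.2
          (y + a).val).flatMap enc)) ≤
      av (fun ω => av (fun v => N (F ω v) (F ω (v + θ)))) + 2 * u := by
    rw [av_prod, ← av_const (α := ∀ i, Ω i) (2 * u), ← av_add]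
    refine av_mono fun ω => ?_
    rw [← av_const (α := ∀ i, ZMod (q i)) (2 * u), ← av_add]
    refine av_mono fun v => ?_
    simp only [hXF]
    exact step1 ω v
  have hfour : av (fun ω => av (fun v => N (F ω v) (F ω (v + θ)))) ≤
      4 / (R : ℝ) * ∑ r ∈ Finset.range R,
        av (fun ω => av (fun v => N (F ω v) (F ω (v + fun i => (r : ZMod (q i)))))) +
      2 / (g : ℝ) * ∑ i, av (fun ω => av (fun b : ZMod (q i) =>
        av (fun v => N (F ω v) (F ω (v + Pi.single i b))))) := by
    rw [← av_sum, ← av_sum, ← av_mul_left, ← av_mul_left, ← av_add]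
    refine av_mono fun ω => ?_
    exact four q hcop g R hg hR0 hR (fun v v' => N (F ω v) (F ω v')) (hN.pull (F ω)) θ
  have hrot : ∑ r ∈ Finset.range R,
      av (fun ω => av (fun v => N (F ω v) (F ω (v + fun i => (r : ZMod (q i)))))) ≤
        (R : ℝ) * R * u := by
    calc _ ≤ ∑ r ∈ Finset.range R, 2 * (r : ℝ) * u := by
          refine Finset.sum_le_sum fun r hr => ?_
          exact av_le_const fun ω => av_le_const fun v => step3 ω v r hr
      _ = (∑ r ∈ Finset.range R, (r : ℝ)) * 2 * u := by
          rw [Finset.sum_mul, Finset.sum_mul]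
          refine Finset.sum_congr rfl fun r _ => by ring
      _ ≤ (R : ℝ) * R * u := by
          have h1 : ((∑ r ∈ Finset.range R, r : ℕ) : ℝ) * 2 = ((R * (R - 1) : ℕ) : ℝ) := by
            exact_mod_cast Finset.sum_range_id_mul_two R
          have h2 : ((R * (R - 1) : ℕ) : ℝ) ≤ (R : ℝ) * R := by
            exact_mod_cast Nat.mul_le_mul_left R (Nat.sub_le R 1)
          push_cast at h1
          have h3 : (∑ r ∈ Finset.range R, (r : ℝ)) * 2 ≤ (R : ℝ) * R := by
            rw [h1]; push_cast at h2; exact h2
          exact mul_le_mul_of_nonneg_right h3 hu0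
  have hcol : ∑ i, av (fun ω => av (fun b : ZMod (q i) =>
        av (fun v => N (F ω v) (F ω (v + Pi.single i b))))) ≤
      ((s - 1 : ℕ) : ℝ) * (κ * (lam * (q p) * (2 * M)) * L * n) := by
    have h1 : ∀ i, av (fun ω => av (fun b : ZMod (q i) =>
        av (fun v => N (F ω v) (F ω (v + Pi.single i b))))) ≤
          if i = p then 0 else κ * (lam * (q p) * (2 * M)) * L * n := by
      intro i
      rw [av_comm]
      refine av_le_const fun b => ?_
      rw [av_comm]
      exact av_le_const fun v => step4 i v b
    refine (Finset.sum_le_sum fun i _ => h1 i).trans (le_of_eq ?_)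
    rw [Finset.sum_ite, Finset.sum_const_zero, zero_add, Finset.sum_const, nsmul_eq_mul]
    congr 2
    rw [Finset.filter_ne' Finset.univ p, Finset.card_erase_of_mem (Finset.mem_univ _),
      Finset.card_univ, Fintype.card_fin]
  refine hav.trans ?_
  have hRr : (1 : ℝ) ≤ R := by exact_mod_cast hR0
  have hMr : (0 : ℝ) < M := by exact_mod_cast hM
  have hgr : (0 : ℝ) < g := by exact_mod_cast hg
  have h1 := mul_le_mul_of_nonneg_left hrot (show (0 : ℝ) ≤ 4 / (R : ℝ) by positivity)
  have h2 := mul_le_mul_of_nonneg_left hcol (show (0 : ℝ) ≤ 2 / (g : ℝ) by positivity)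
  have h3 : 4 / (R : ℝ) * ((R : ℝ) * R * u) = 4 * R * u := by
    field_simp
  have h4 : 2 / (g : ℝ) * (((s - 1 : ℕ) : ℝ) * (κ * (lam * (q p) * (2 * M)) * L * n)) =
      4 / (g : ℝ) * κ * (M * u) := by
    rw [hu]; ring
  have h5 : (4 / (g : ℝ) * κ + 6 * R / M) * lam * L * (q p) * ((M * (s - 1) * n : ℕ) : ℝ) =
      4 / (g : ℝ) * κ * (M * u) + 6 * R * u := by
    rw [hu]
    push_cast
    field_simp
  rw [h5]
  have h6 : 2 * u ≤ 2 * R * u := by nlinarith
  linarith

end Crest.Agent.R210
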