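import Crest.Agent.R210.Defs

/-! # Piece KER: the `ℓ¹` distance is a kernel (`Ker`)

`neg` for the real line: `∑ c_i c_j |a_i - a_j| ≤ 0` if `∑ c = 0`.
Since `|a-b| = a + b - 2 min a b` and `∑ c = 0` this is `∑ c_i c_j min (a_i) (a_j) ≥ 0`; shift all
`a_i` to be `≥ 0` and show `∑ c_i c_j min(a_i,a_j) ≥ 0` (for all `c`, `a ≥ 0`) by induction on the
cardinality of the finset: subtract the minimal value `m`:
`∑ c_i c_j min = m (∑ c)² + ∑_{i,j ≠ i₀} c_i c_j min(a_i - m, a_j - m)`.
(or `|a-b| = ∫ |1_{t<a} - 1_{t<b}|² dt`).  Then sum over the coordinates of `ℓ¹`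
(`lp.norm_eq_tsum_rpow`, `p = 1`, summability). -/

set_option autoImplicit false

namespace Crest.Agent.R210

theorem L1Ker_min_nonneg {ι : Type} (n : ℕ) : ∀ (s : Finset ι) (c a : ι → ℝ), s.card = n →
    (∀ i ∈ s, 0 ≤ a i) → 0 ≤ ∑ i ∈ s, ∑ j ∈ s, c i * c j * min (a i) (a j) := by
  classical
  induction n with
  | zero =>
    intro s c a hs _
    rw [Finset.card_eq_zero] at hs
    simp [hs]
  | succ n ih =>
    intro s c a hs ha
    have hne : s.Nonempty := by
      rw [← Finset.card_pos]; omega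
    obtain ⟨i₀, hi₀, hmin⟩ := s.exists_min_image a hne
    have h1 : ∑ i ∈ s, ∑ j ∈ s, c i * c j * min (a i) (a j)
        = a i₀ * (∑ i ∈ s, c i) ^ 2
          + ∑ i ∈ s, ∑ j ∈ s, c i * c j * min (a i - a i₀) (a j - a i₀) := by
      have h2 : (∑ i ∈ s, c i) ^ 2 = ∑ i ∈ s, ∑ j ∈ s, c i * c j := by
        rw [sq, Finset.sum_mul_sum]
      rw [h2, Finset.mul_sum, ← Finset.sum_add_distrib]
      refine Finset.sum_congr rfl fun i _ => ?_
      rw [Finset.mul_sum, ← Finset.sum_add_distrib]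
      refine Finset.sum_congr rfl fun j _ => ?_
      rw [min_sub_sub_right]
      ring
    have h3 : ∑ i ∈ s, ∑ j ∈ s, c i * c j * min (a i - a i₀) (a j - a i₀)
        = ∑ i ∈ s.erase i₀, ∑ j ∈ s.erase i₀,
            c i * c j * min (a i - a i₀) (a j - a i₀) := by
      rw [← Finset.add_sum_erase s _ hi₀]
      have h4 : ∑ j ∈ s, c i₀ * c j * min (a i₀ - a i₀) (a j - a i₀) = 0 := by
        refine Finset.sum_eq_zero fun j hj => ?_
        have := hmin j hj
        rw [sub_self, min_eq_left (by linarith), mul_zero]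
      rw [h4, zero_add]
      refine Finset.sum_congr rfl fun i hi => ?_
      rw [← Finset.add_sum_erase s _ hi₀]
      have := hmin i (Finset.mem_of_mem_erase hi)
      rw [sub_self, min_eq_right (by linarith : (0:ℝ) ≤ a i - a i₀), mul_zero, zero_add]
    rw [h1, h3]
    have h5 := ih (s.erase i₀) c (fun i => a i - a i₀)
      (by rw [Finset.card_erase_of_mem hi₀]; omega)
      (fun i hi => by
        have := hmin i (Finset.mem_of_mem_erase hi)
        linarith)
    have h6 := mul_nonneg (ha i₀ hi₀) (sq_nonneg (∑ i ∈ s, c i))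
    linarith

theorem real_neg {ι : Type} (s : Finset ι) (c : ι → ℝ) (a : ι → ℝ) (hc : ∑ i ∈ s, c i = 0) :
    ∑ i ∈ s, ∑ j ∈ s, c i * c j * |a i - a j| ≤ 0 := by
  -- a lower bound for the values
  obtain ⟨m, hm⟩ : ∃ m : ℝ, ∀ i ∈ s, m ≤ a i := by
    rcases s.eq_empty_or_nonempty with h | h
    · exact ⟨0, by simp [h]⟩
    · obtain ⟨i₀, _, hmin⟩ := s.exists_min_image a h
      exact ⟨a i₀, hmin⟩
  have h1 := L1Ker_min_nonneg s.card s c (fun i => a i - m) rfl
    (fun i hi => by have := hm i hi; linarith)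
  have h2 : ∑ i ∈ s, ∑ j ∈ s, c i * c j * |a i - a j|
      = (∑ i ∈ s, c i * (a i - m)) * (∑ j ∈ s, c j)
        + (∑ i ∈ s, c i) * (∑ j ∈ s, c j * (a j - m))
        - 2 * ∑ i ∈ s, ∑ j ∈ s, c i * c j * min (a i - m) (a j - m) := by
    rw [Finset.sum_mul_sum, Finset.sum_mul_sum, Finset.mul_sum, ← Finset.sum_add_distrib,
      ← Finset.sum_sub_distrib]
    refine Finset.sum_congr rfl fun i _ => ?_
    rw [Finset.mul_sum, ← Finset.sum_add_distrib, ← Finset.sum_sub_distrib]
    refine Finset.sum_congr rfl fun j _ => ?_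
    rcases le_total (a i) (a j) with h | h
    · rw [abs_of_nonpos (by linarith), min_eq_left (by linarith)]
      ring
    · rw [abs_of_nonneg (by linarith), min_eq_right (by linarith)]
      ring
  rw [h2, hc]
  simp only [mul_zero, zero_mul, zero_add, zero_sub]
  linarith

theorem ker_l1 {X : Type} (f : X → lp (fun _ : ℕ => ℝ) 1) : Ker (fun x y => ‖f x - f y‖) where
  refl x := by simp
  symm x y := norm_sub_rev _ _
  tri x y z := norm_sub_le_norm_sub_add_norm_sub _ _ _
  neg ι s c x hc := by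
    have hnorm : ∀ g : lp (fun _ : ℕ => ℝ) 1, HasSum (fun k => |g k|) ‖g‖ := by
      intro g
      have h := lp.hasSum_norm (p := 1) (by norm_num : 0 < ENNReal.toReal 1) g
      simpa using h
    have hs : HasSum (fun k => ∑ i ∈ s, ∑ j ∈ s, c i * c j * |(f (x i)) k - (f (x j)) k|)
        (∑ i ∈ s, ∑ j ∈ s, c i * c j * ‖f (x i) - f (x j)‖) := by
      refine hasSum_sum fun i _ => hasSum_sum fun j _ => ?_
      refine HasSum.mul_left _ ?_
      have := hnorm (f (x i) - f (x j))
      simpa using this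
    exact hasSum_le (fun k => real_neg s c (fun i => (f (x i)) k) hc) hs hasSum_zero

end Crest.Agent.R210
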