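import Crest.Agent.R210.Defs
import Crest.Agent.R210.Av
import Crest.Agent.R210.EDBasic

/-! # Piece LEV0: the base level: `Ω = Unit`, `X () y = [[y.val]]` -/

set_option autoImplicit false
open Crest.GeometryTopology.EditDistance

namespace Crest.Agent.R210

theorem lev_zero (Q B : ℕ) [NeZero Q] (hQ : Q ≤ B) : Lev Q 0 1 B 1 2 := by
  refine ⟨Unit, inferInstance, inferInstance, fun _ y => [[y.val]], ?_, ?_, ?_, ?_⟩
  · intro _ _; rfl
  · intro _ y t ht
    rw [List.mem_singleton] at ht
    subst ht
    refine ⟨rfl, fun m hm => ?_⟩
    rw [List.mem_singleton] at hm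
    subst hm
    exact lt_of_lt_of_le (ZMod.val_lt y) hQ
  · intro _ y y' hyy z h1 h2
    have hz : z = [] := by
      by_contra hne
      have l1 : z.length = 1 := by
        have := h1.length_le
        have h3 : 0 < z.length := List.length_pos_iff.2 hne
        simp only [List.length_singleton] at this
        omega
      have e1 : z = [[y.val]] := h1.eq_of_length (by simp [l1])
      have e2 : z = [[y'.val]] := h2.eq_of_length (by simp [l1])
      rw [e1] at e2
      simp only [List.cons.injEq, and_true] at e2
      exact hyy (ZMod.val_injective Q e2)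
    subst hz
    simp
  · intro L enc henc N lam hN hlam hLip a
    refine av_le_const fun _ => ?_
    have h1 := hLip (fun y => [[y.val]].flatMap enc) (fun y => [[(y + a).val]].flatMap enc)
      (fun y => by simp [henc]) (fun y => by simp [henc])
    refine h1.trans ?_
    have h2 : ∑ y : ZMod Q, (editDist ([[y.val]].flatMap enc) ([[(y + a).val]].flatMap enc) : ℝ) ≤
        ∑ _y : ZMod Q, (2 * L : ℝ) := by
      refine Finset.sum_le_sum fun y _ => ?_
      have := ed_le_add ([[y.val]].flatMap enc) ([[(y + a).val]].flatMap enc)
      simp only [List.flatMap_cons, List.flatMap_nil, List.append_nil, henc] at this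
      have h3 : ((editDist (enc [y.val]) (enc [(y + a).val]) : ℕ) : ℝ) ≤ ((L + L : ℕ) : ℝ) := by
        exact_mod_cast this
      simp only [List.flatMap_cons, List.flatMap_nil, List.append_nil]
      push_cast at h3
      linarith
    rw [Finset.sum_const, Finset.card_univ, ZMod.card, nsmul_eq_mul] at h2
    calc lam * _ ≤ lam * ((Q : ℝ) * (2 * L)) := mul_le_mul_of_nonneg_left h2 hlam
      _ = _ := by push_cast; ring

end Crest.Agent.R210
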