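import Crest.Agent.R210.Defs

/-! # Piece PHI: an injective binary code for letters -/

set_option autoImplicit false

namespace Crest.Agent.R210

/-- e.g. `φ t k = (Nat.ofDigits B t).testBit k`, or an abstract injection `{t} ≃ Fin (B^k) ↪ (Fin m → Bool)` -/
theorem exists_phi (B k m : ℕ) (hB : B ^ k ≤ 2 ^ m) : ∃ φ : List ℕ → Fin m → Bool,
    ∀ t t' : List ℕ, t.length = k → t'.length = k → (∀ x ∈ t, x < B) → (∀ x ∈ t', x < B) →
      φ t = φ t' → t = t' := by
  refine ⟨fun t i => (Nat.ofDigits B t).testBit i, ?_⟩
  intro t t' ht ht' hb hb' h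
  have key : ∀ (l l' : List ℕ), l.length = l'.length → (∀ x ∈ l, x < B) → (∀ x ∈ l', x < B) →
      Nat.ofDigits B l = Nat.ofDigits B l' → l = l' := by
    intro l
    induction l with
    | nil =>
      intro l' hl _ _ _
      exact (List.eq_nil_of_length_eq_zero hl.symm).symm
    | cons a l ih =>
      intro l' hl h1 h2 he
      cases l' with
      | nil => simp at hl
      | cons b l' =>
        rw [Nat.ofDigits_cons, Nat.ofDigits_cons] at he
        have ha := h1 a (by simp)
        have hb := h2 b (by simp)
        have e1 : a = b := by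
          have := congrArg (· % B) he
          simpa [Nat.mod_eq_of_lt ha, Nat.mod_eq_of_lt hb] using this
        subst e1
        have hB0 : 0 < B := by omega
        have e2 : Nat.ofDigits B l = Nat.ofDigits B l' := by
          have := Nat.add_left_cancel he
          exact Nat.eq_of_mul_eq_mul_left hB0 this
        rw [ih l' (by simpa using hl) (fun x hx => h1 x (by simp [hx]))
          (fun x hx => h2 x (by simp [hx])) e2]
  have hlt : ∀ (l : List ℕ), (∀ x ∈ l, x < B) → Nat.ofDigits B l < B ^ l.length := by
    intro l
    induction l with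
    | nil => intro _; simp
    | cons a l ih =>
      intro h1
      rw [Nat.ofDigits_cons, List.length_cons, pow_succ]
      have ha := h1 a (by simp)
      have := ih (fun x hx => h1 x (by simp [hx]))
      calc (a : ℕ) + B * Nat.ofDigits B l < B + B * Nat.ofDigits B l := by
            exact Nat.add_lt_add_right ha _
        _ = B * (Nat.ofDigits B l + 1) := by ring
        _ ≤ B * B ^ l.length := Nat.mul_le_mul_left _ this
        _ = B ^ l.length * B := by ring
  refine key t t' (ht.trans ht'.symm) hb hb' ?_
  have h1 : Nat.ofDigits B t < 2 ^ m := by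
    have := hlt t hb
    rw [ht] at this
    omega
  have h2 : Nat.ofDigits B t' < 2 ^ m := by
    have := hlt t' hb'
    rw [ht'] at this
    omega
  apply Nat.eq_of_testBit_eq
  intro i
  by_cases hi : i < m
  · exact congrFun h ⟨i, hi⟩
  · rw [Nat.testBit_lt_two_pow (lt_of_lt_of_le h1 (Nat.pow_le_pow_right (by norm_num) (by omega))),
      Nat.testBit_lt_two_pow (lt_of_lt_of_le h2 (Nat.pow_le_pow_right (by norm_num) (by omega)))]

end Crest.Agent.R210
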