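import Crest.Agent.R210.Defs
import Crest.Agent.R210.FoolStep
import Crest.Agent.R210.FarLev

/-! # The induction step (owner helper14) -/

set_option autoImplicit false
open Crest.GeometryTopology.EditDistance

namespace Crest.Agent.R210

theorem lev_step {s : ℕ} (q : Fin s → ℕ) [∀ i, NeZero (q i)]
    (hcop : Pairwise fun i j => Nat.Coprime (q i) (q j)) (g j n B : ℕ) (hg : 2 ≤ g)
    (hs : s = 24 * g) (hq : ∀ i, 2 ^ s < q i ∧ q i ≤ 2 ^ (2 * s)) (hB : s ≤ B)
    (a κ : ℝ) (ha0 : 0 ≤ a) (ha1 : a ≤ 1) (hκ : 0 ≤ κ) (h : ∀ i, Lev (q i) j n B a κ) (p : Fin s) :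
    Lev (q p) (j + 1) (2 ^ (4 * s * g) * (s - 1) * n) B (3 / 8 * a)
      (4 / (g : ℝ) * κ + 6 * 2 ^ (2 * s * g) / 2 ^ (4 * s * g)) := by
  choose Ω hfin hne X hn hletters hfar hfool using h
  refine ⟨(∀ i, Ω i) × (∀ i, ZMod (q i)), inferInstance, inferInstance,
    fun ω y => fam q (2 ^ (4 * s * g)) p (fun i b => (X i (ω.1 i) b).map (i.val :: ·)) ω.2 y.val,
    ?_, ?_, ?_, ?_⟩
  · intro ω y
    exact fam_length q _ p _ _ _ n (fun i b => by simp [hn])
  · intro ω y t ht
    obtain ⟨i, b, htt⟩ := mem_fam _ _ _ _ _ _ _ ht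
    rw [List.mem_map] at htt
    obtain ⟨t', ht', rfl⟩ := htt
    obtain ⟨h1, h2⟩ := hletters i _ _ t' ht'
    refine ⟨by simp [h1], fun m hm => ?_⟩
    rcases List.mem_cons.1 hm with rfl | hm
    · exact i.isLt.trans_le hB
    · exact h2 m hm
  · exact far_lev q hcop g n hg hs hq a ha0 ha1 Ω X hn hfar p
  · have hM1 : ∀ i, q i ≤ 2 ^ (4 * s * g) := by
      intro i
      refine (hq i).2.trans (Nat.pow_le_pow_right (by norm_num) ?_)
      nlinarith [Nat.zero_le s]
    have hs1 : 1 ≤ s := by omega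
    have key := fool_step q hcop g (2 ^ (2 * s * g)) (2 ^ (4 * s * g)) n (by omega) (by positivity)
      (Nat.pow_le_pow_right (by norm_num) (by nlinarith [Nat.zero_le (s * g)])) hM1 (by
        intro A hA
        have h1 : ∏ i ∈ A, q i ≤ 2 ^ (2 * s * (g - 1)) := by
          calc ∏ i ∈ A, q i ≤ ∏ _i ∈ A, 2 ^ (2 * s) :=
                Finset.prod_le_prod' fun i _ => (hq i).2
            _ = (2 ^ (2 * s)) ^ A.card := by rw [Finset.prod_const]
            _ ≤ (2 ^ (2 * s)) ^ (g - 1) := Nat.pow_le_pow_right (by positivity) (by omega)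
            _ = 2 ^ (2 * s * (g - 1)) := by rw [← pow_mul]
        calc 2 * ∏ i ∈ A, q i ≤ 2 ^ 1 * 2 ^ (2 * s * (g - 1)) := by
              rw [pow_one]; exact Nat.mul_le_mul_left 2 h1
          _ = 2 ^ (1 + 2 * s * (g - 1)) := by rw [← pow_add]
          _ ≤ 2 ^ (2 * s * g) := by
              apply Nat.pow_le_pow_right (by norm_num)
              obtain ⟨g', rfl⟩ : ∃ g', g = g' + 1 := ⟨g - 1, by omega⟩
              simp only [Nat.add_sub_cancel]
              nlinarith) Ω X hn κ hκ hfool p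
    convert key using 2
    push_cast
    ring

end Crest.Agent.R210
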