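import Crest.Agent.R210.Defs
import Crest.Agent.R210.Av
import Crest.Agent.R210.EDBasic
import Crest.Agent.R210.L1Ker
import Crest.Agent.R210.Code
import Crest.Agent.R210.Phi
import Crest.Agent.R210.Step
import Crest.Agent.R210.Lev0
import Crest.Agent.R210.Moduli

/-! # Assembly (owner helper14) -/

set_option autoImplicit false
open Crest.GeometryTopology.EditDistance

namespace Crest.Agent.R210

theorem Lev.mono {Q : ℕ} [NeZero Q] {j n B : ℕ} {a κ κ' : ℝ} (h : Lev Q j n B a κ)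
    (hk : κ ≤ κ') : Lev Q j n B a κ' := by
  obtain ⟨Ω, i1, i2, X, h1, h2, h3, h4⟩ := h
  exact ⟨Ω, i1, i2, X, h1, h2, h3, h4.mono hk⟩

theorem lev_all (g K : ℕ) (hg : 8 ≤ g) (hgK : g ^ (K + 1) ≤ 2 ^ (48 * g ^ 2)) {s : ℕ}
    (hs : s = 24 * g) (q : Fin s → ℕ) [∀ i, NeZero (q i)]
    (hcop : Pairwise fun i j => Nat.Coprime (q i) (q j))
    (hq : ∀ i, 2 ^ s < q i ∧ q i ≤ 2 ^ (2 * s)) :
    ∀ j ≤ K, ∀ p, Lev (q p) j ((2 ^ (4 * s * g) * (s - 1)) ^ j) (2 ^ (2 * s)) ((3 / 8) ^ j)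
      (2 * (8 / (g : ℝ)) ^ j) := by
  have hB : s ≤ 2 ^ (2 * s) :=
    (Nat.lt_two_pow_self (n := s)).le.trans (Nat.pow_le_pow_right (by norm_num) (by omega))
  have hg0 : (0 : ℝ) < g := by
    have : 0 < g := by omega
    exact_mod_cast this
  intro j
  induction j with
  | zero =>
    intro _ p
    simpa using lev_zero (q p) (2 ^ (2 * s)) (hq p).2
  | succ j ih =>
    intro hj p
    have key := lev_step q hcop g j _ (2 ^ (2 * s)) (by omega) hs hq hB ((3 / 8) ^ j)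
      (2 * (8 / (g : ℝ)) ^ j) (by positivity) (pow_le_one₀ (by norm_num) (by norm_num))
      (by positivity) (ih (by omega)) p
    rw [← pow_succ', ← pow_succ'] at key
    refine key.mono ?_
    -- numeric
    have h1 : (6 * 2 ^ (2 * s * g) / 2 ^ (4 * s * g) : ℝ) = 6 / 2 ^ (48 * g ^ 2) := by
      rw [show 4 * s * g = 2 * s * g + 48 * g ^ 2 by rw [hs]; ring, pow_add]
      field_simp
    have h2 : (6 / 2 ^ (48 * g ^ 2) : ℝ) ≤ (8 / (g : ℝ)) ^ (j + 1) := by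
      rw [div_pow, div_le_div_iff₀ (by positivity) (by positivity)]
      have e1 : (g : ℝ) ^ (j + 1) ≤ 2 ^ (48 * g ^ 2) := by
        have : g ^ (j + 1) ≤ 2 ^ (48 * g ^ 2) :=
          (Nat.pow_le_pow_right (by omega) (by omega)).trans hgK
        exact_mod_cast this
      have e2 : (6 : ℝ) ≤ 8 ^ (j + 1) := by
        calc (6 : ℝ) ≤ 8 ^ 1 := by norm_num
          _ ≤ 8 ^ (j + 1) := pow_le_pow_right₀ (by norm_num) (by omega)
      exact mul_le_mul e2 e1 (by positivity) (by positivity)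
    have h3 : 2 * (8 / (g : ℝ)) ^ (j + 1) =
        4 / (g : ℝ) * (2 * (8 / (g : ℝ)) ^ j) + (8 / (g : ℝ)) ^ (j + 1) := by
      rw [pow_succ]; ring
    rw [h1, h3]
    linarith

theorem n_bound (g K : ℕ) (hg : 8 ≤ g) (hK : 1 ≤ K) :
    (2 ^ (4 * (24 * g) * g) * (24 * g - 1)) ^ K * (2 + 2 * (2 * (24 * g) * (K + 1))) ≤
      2 ^ (98 * g ^ 2 * K) := by
  have h1 : 24 * g ≤ 2 ^ (g ^ 2) := by
    calc 24 * g ≤ 2 ^ 5 * 2 ^ g := Nat.mul_le_mul (by norm_num) (Nat.lt_two_pow_self).le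
      _ = 2 ^ (5 + g) := by rw [pow_add]
      _ ≤ 2 ^ (g ^ 2) := Nat.pow_le_pow_right (by norm_num) (by nlinarith)
  have h2 : 2 + 2 * (2 * (24 * g) * (K + 1)) ≤ 2 ^ (g ^ 2 * K) := by
    calc 2 + 2 * (2 * (24 * g) * (K + 1)) ≤ 2 ^ 8 * g * K := by nlinarith
      _ ≤ 2 ^ 8 * 2 ^ g * 2 ^ K :=
        Nat.mul_le_mul (Nat.mul_le_mul le_rfl (Nat.lt_two_pow_self).le) (Nat.lt_two_pow_self).le
      _ = 2 ^ (8 + g + K) := by rw [pow_add, pow_add]
      _ ≤ 2 ^ (g ^ 2 * K) := Nat.pow_le_pow_right (by norm_num) (by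
        obtain ⟨g', rfl⟩ : ∃ g', g = g' + 8 := ⟨g - 8, by omega⟩
        obtain ⟨K', rfl⟩ : ∃ K', K = K' + 1 := ⟨K - 1, by omega⟩
        nlinarith [Nat.zero_le (g' ^ 2 * K'), Nat.zero_le (g' * K'), Nat.zero_le (g' ^ 2)])
  calc (2 ^ (4 * (24 * g) * g) * (24 * g - 1)) ^ K * (2 + 2 * (2 * (24 * g) * (K + 1)))
      ≤ (2 ^ (4 * (24 * g) * g) * 2 ^ (g ^ 2)) ^ K * 2 ^ (g ^ 2 * K) :=
        Nat.mul_le_mul (Nat.pow_le_pow_left (Nat.mul_le_mul le_rfl ((Nat.sub_le _ _).trans h1)) K) h2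
    _ = 2 ^ (98 * g ^ 2 * K) := by
        rw [← pow_add, ← pow_mul, ← pow_add]
        congr 1
        ring

theorem main_bound (g K : ℕ) (hg : 8 ≤ g) (hK : 1 ≤ K) (hgK : g ^ (K + 1) ≤ 2 ^ (48 * g ^ 2)) :
    ∃ n : ℕ, n ≤ 2 ^ (98 * g ^ 2 * K) ∧
      ∀ (f : List Bool → lp (fun _ : ℕ => ℝ) 1) (s D : ℝ), 0 < s →
        (∀ x y : List Bool, x.length = n → y.length = n → x ≠ y →
          s * (editDist x y : ℝ) ≤ ‖f x - f y‖ ∧ ‖f x - f y‖ ≤ D * s * (editDist x y : ℝ)) →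
        (3 * (g : ℝ) / 64) ^ K / (4 * (2 + 96 * g * (K + 1)) * 2 ^ (48 * g)) ≤ D := by
  obtain ⟨q, hcop, hq⟩ := exists_moduli (24 * g)
  have : ∀ i, NeZero (q i) := fun i => ⟨((Nat.zero_le _).trans_lt (hq i).1).ne'⟩
  have h24 : 0 < 24 * g := by omega
  have hlev := lev_all g K hg hgK rfl q hcop hq K le_rfl ⟨0, h24⟩
  set Q := q ⟨0, h24⟩ with hQdef
  have hQ1 : 1 < Q := lt_of_le_of_lt (Nat.one_le_two_pow) (hq ⟨0, h24⟩).1
  have hQ2 : Q ≤ 2 ^ (48 * g) := by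
    refine (hq ⟨0, h24⟩).2.trans (le_of_eq ?_)
    congr 1
    ring
  have : Fact (1 < Q) := ⟨hQ1⟩
  have : Nontrivial (ZMod Q) := ZMod.nontrivial Q
  obtain ⟨Ω, i1, i2, X, hn, hlet, hfar, hfool⟩ := hlev
  set nK : ℕ := (2 ^ (4 * (24 * g) * g) * (24 * g - 1)) ^ K with hnK
  have hnK0 : 0 < nK := by
    have : 0 < 24 * g - 1 := by omega
    positivity
  set m : ℕ := 2 * (24 * g) * (K + 1) with hm
  obtain ⟨φ, hφ⟩ := exists_phi (2 ^ (2 * (24 * g))) (K + 1) m (by rw [← pow_mul])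
  refine ⟨nK * (2 + 2 * m), n_bound g K hg hK, ?_⟩
  intro f σ D hσ hf
  have hwlen : ∀ ω y, ((X ω y).flatMap (code m φ)).length = nK * (2 + 2 * m) := by
    intro ω y
    simp only [List.length_flatMap, code_length]
    rw [List.map_const', List.sum_replicate, hn, smul_eq_mul]
  have hnK0r : (0 : ℝ) < nK := by exact_mod_cast hnK0
  -- words are far
  have hfar' : ∀ ω, (3 / 8 : ℝ) ^ K * nK ≤
      2 * (editDist ((X ω 0).flatMap (code m φ)) ((X ω 1).flatMap (code m φ)) : ℝ) := by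
    intro ω
    obtain ⟨z, hz1, hz2, hz3⟩ := code_lower m φ (X ω 0) (X ω 1) (by rw [hn, hn])
      (fun t ht t' ht' h => hφ t t' (hlet ω 0 t ht).1 (hlet ω 1 t' ht').1 (hlet ω 0 t ht).2
        (hlet ω 1 t' ht').2 h)
    have h1 := hfar ω 0 1 zero_ne_one z hz1 hz2
    rw [hn] at hz3
    have h2 : (nK : ℝ) ≤ z.length +
        2 * (editDist ((X ω 0).flatMap (code m φ)) ((X ω 1).flatMap (code m φ)) : ℝ) := by
      exact_mod_cast hz3
    linarith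
  have hlow : ∀ ω, σ * ((3 / 8 : ℝ) ^ K * nK / 2) ≤
      ‖f ((X ω 0).flatMap (code m φ)) - f ((X ω 1).flatMap (code m φ))‖ ∧ 0 < D * σ := by
    intro ω
    have h1 := hfar' ω
    have h2 : (0 : ℝ) < (3 / 8 : ℝ) ^ K * nK := by positivity
    have hpos : (0 : ℝ) <
        (editDist ((X ω 0).flatMap (code m φ)) ((X ω 1).flatMap (code m φ)) : ℝ) := by
      linarith
    have hne : (X ω 0).flatMap (code m φ) ≠ (X ω 1).flatMap (code m φ) := by
      intro h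
      rw [h, ed_self] at hpos
      simp at hpos
    obtain ⟨h3, h4⟩ := hf _ _ (hwlen ω 0) (hwlen ω 1) hne
    constructor
    · refine le_trans ?_ h3
      exact mul_le_mul_of_nonneg_left (by linarith) hσ.le
    · have h5 := h3.trans h4
      have h6 : σ ≤ D * σ := le_of_mul_le_mul_right h5 hpos
      linarith
  obtain ⟨ω₀⟩ := i2
  have hDσ : 0 < D * σ := (hlow ω₀).2
  have : Nonempty Ω := ⟨ω₀⟩
  have hup := hfool (2 + 2 * m) (code m φ) (code_length m φ)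
    (fun W W' => ‖f (W 0) - f (W' 0)‖) (D * σ)
    (Ker.pull (ker_l1 f) (fun W : ZMod Q → List Bool => W 0)) hDσ.le (by
      intro W W' hW hW'
      have h1 : ‖f (W 0) - f (W' 0)‖ ≤ D * σ * (editDist (W 0) (W' 0) : ℝ) := by
        by_cases h : W 0 = W' 0
        · rw [h, sub_self, norm_zero]
          positivity
        · exact (hf _ _ (hW 0) (hW' 0) h).2
      refine h1.trans (mul_le_mul_of_nonneg_left ?_ hDσ.le)
      exact Finset.single_le_sum (f := fun y => (editDist (W y) (W' y) : ℝ))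
        (fun _ _ => by positivity) (Finset.mem_univ 0)) 1
  simp only [zero_add] at hup
  have hmain : σ * ((3 / 8 : ℝ) ^ K * nK / 2) ≤
      2 * (8 / (g : ℝ)) ^ K * (D * σ) * ((2 + 2 * m : ℕ) : ℝ) * (Q : ℝ) * nK :=
    (le_av_const fun ω => (hlow ω).1).trans hup
  have hg0 : (0 : ℝ) < g := by
    have : 0 < g := by omega
    exact_mod_cast this
  have hD : 0 < D := pos_of_mul_pos_left hDσ hσ.le
  have hQr : (Q : ℝ) ≤ 2 ^ (48 * g) := by exact_mod_cast hQ2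
  have hL : ((2 + 2 * m : ℕ) : ℝ) = 2 + 96 * g * (K + 1) := by
    rw [hm]; push_cast; ring
  rw [hL] at hmain
  rw [div_le_iff₀ (by positivity)]
  have h1 : (3 / 8 : ℝ) ^ K / 2 ≤ 2 * (8 / (g : ℝ)) ^ K * D * (2 + 96 * g * (K + 1)) * Q := by
    have h2 : (3 / 8 : ℝ) ^ K / 2 * (σ * nK) ≤
        2 * (8 / (g : ℝ)) ^ K * D * (2 + 96 * g * (K + 1)) * Q * (σ * nK) := by
      calc _ = σ * ((3 / 8 : ℝ) ^ K * nK / 2) := by ring
        _ ≤ _ := hmain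
        _ = _ := by ring
    exact le_of_mul_le_mul_right h2 (by positivity)
  have h3 : (3 * (g : ℝ) / 64) ^ K = (3 / 8 : ℝ) ^ K * ((g : ℝ) / 8) ^ K := by
    rw [← mul_pow]
    congr 1
    ring
  have h4 : (8 / (g : ℝ)) ^ K * ((g : ℝ) / 8) ^ K = 1 := by
    rw [← mul_pow]
    have : 8 / (g : ℝ) * ((g : ℝ) / 8) = 1 := by field_simp
    rw [this, one_pow]
  calc (3 * (g : ℝ) / 64) ^ K = 2 * (((3 / 8 : ℝ) ^ K / 2) * ((g : ℝ) / 8) ^ K) := by
        rw [h3]; ring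
    _ ≤ 2 * ((2 * (8 / (g : ℝ)) ^ K * D * (2 + 96 * g * (K + 1)) * Q) * ((g : ℝ) / 8) ^ K) := by
        gcongr
    _ = 4 * D * (2 + 96 * g * (K + 1)) * Q * ((8 / (g : ℝ)) ^ K * ((g : ℝ) / 8) ^ K) := by ring
    _ = D * (4 * (2 + 96 * g * (K + 1)) * Q) := by rw [h4]; ring
    _ ≤ D * (4 * (2 + 96 * g * (K + 1)) * 2 ^ (48 * g)) := by gcongr

end Crest.Agent.R210
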