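import Mathlib

/-! # Piece NUM: choice of the parameters

`g = 2^j`, `K = 4^j / j`, where `j` is the largest number with `98 * 16^j ≤ j * ℓ`, `ℓ = Nat.log 2 d`. -/

set_option autoImplicit false

namespace Crest.Agent.R210

namespace NUMaux

theorem exists_j (l : ℕ) (hl : 98 * 16 ^ 12 ≤ l) :
    ∃ j : ℕ, 12 ≤ j ∧ 98 * 16 ^ j ≤ j * l ∧ (j + 1) * l < 98 * 16 ^ (j + 1) := by
  classical
  set P : ℕ → Prop := fun j => 98 * 16 ^ j ≤ j * l with hP
  have h12 : P 12 := by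
    show 98 * 16 ^ 12 ≤ 12 * l
    omega
  have hle : 12 ≤ l := by
    have : 12 ≤ 98 * 16 ^ 12 := by norm_num
    omega
  have hlow : 12 ≤ Nat.findGreatest P l := Nat.le_findGreatest hle h12
  have hspec : P (Nat.findGreatest P l) := Nat.findGreatest_spec hle h12
  refine ⟨Nat.findGreatest P l, hlow, hspec, ?_⟩
  by_contra hcon
  rw [not_lt] at hcon
  have hP1 : P (Nat.findGreatest P l + 1) := hcon
  by_cases hb : Nat.findGreatest P l + 1 ≤ l
  · have := Nat.le_findGreatest hb hP1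
    omega
  · have hfl : Nat.findGreatest P l ≤ l := Nat.findGreatest_le l
    have heq : Nat.findGreatest P l = l := by omega
    rw [heq] at hspec
    have h16 : l < 4 ^ l := Nat.lt_pow_self (by norm_num)
    have : 98 * 16 ^ l ≤ l * l := hspec
    have h2 : l * l ≤ 4 ^ l * 4 ^ l := Nat.mul_le_mul h16.le h16.le
    have h3 : (4 : ℕ) ^ l * 4 ^ l = 16 ^ l := by rw [← mul_pow]; norm_num
    have h4 : 0 < (16 : ℕ) ^ l := by positivity
    omega

theorem real_bound (j K : ℕ) (hj : 12 ≤ j) (hK : 4 ^ j < (K + 1) * j) (hK2 : K * j ≤ 4 ^ j) :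
    (2 : ℝ) ^ (4 ^ (j - 1)) ≤
      (3 * ((2 ^ j : ℕ) : ℝ) / 64) ^ K / (4 * (2 + 96 * ((2 ^ j : ℕ) : ℝ) * (K + 1)) * 2 ^ (48 * 2 ^ j)) := by
  have hKle : K ≤ 4 ^ j := by
    calc K = K * 1 := (mul_one K).symm
      _ ≤ K * j := Nat.mul_le_mul_left _ (by omega)
      _ ≤ 4 ^ j := hK2
  have hexp : 4 ^ (j - 1) + (3 * j + 12) + 48 * 2 ^ j ≤ (j - 5) * K := by
    have h1 : j * K ≤ 2 * ((j - 5) * K) := by
      rw [← mul_assoc]
      exact Nat.mul_le_mul_right _ (by omega)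
    have h2 : 4 ^ j = 4 * 4 ^ (j - 1) := by
      conv_lhs => rw [show j = (j - 1) + 1 by omega]
      rw [pow_succ]; ring
    have h3 : (4096 : ℕ) ≤ 2 ^ j := by
      calc (4096 : ℕ) = 2 ^ 12 := by norm_num
        _ ≤ 2 ^ j := Nat.pow_le_pow_right (by norm_num) hj
    have h4 : (4 : ℕ) ^ j = 2 ^ j * 2 ^ j := by
      rw [← mul_pow]; norm_num
    have h5 : 4096 * 2 ^ j ≤ 4 ^ j := by
      rw [h4]; exact Nat.mul_le_mul_right _ h3
    have h6 : j < 2 ^ j := Nat.lt_two_pow_self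
    have h7 : (K + 1) * j = j * K + j := by ring
    rw [h7] at hK
    omega
  have hden : (4 * (2 + 96 * ((2 ^ j : ℕ) : ℝ) * (K + 1)) : ℝ) ≤ 2 ^ (3 * j + 12) := by
    have hnat : 4 * (2 + 96 * 2 ^ j * (K + 1)) ≤ 2 ^ (3 * j + 12) := by
      have h1 : K + 1 ≤ 2 * 4 ^ j := by
        have : 0 < 4 ^ j := by positivity
        omega
      have h2 : 96 * 2 ^ j * (K + 1) ≤ 96 * 2 ^ j * (2 * 4 ^ j) := Nat.mul_le_mul_left _ h1
      have h3 : 2 ^ (3 * j + 12) = 4096 * (2 ^ j * 4 ^ j) := by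
        rw [show (4 : ℕ) = 2 ^ 2 by norm_num, ← pow_mul, pow_add, ← pow_add]
        rw [show 3 * j = j + 2 * j by ring]
        norm_num
        ring
      have h4 : 0 < 2 ^ j * 4 ^ j := by positivity
      have h5 : 96 * 2 ^ j * (2 * 4 ^ j) = 192 * (2 ^ j * 4 ^ j) := by ring
      rw [h3]
      rw [h5] at h2
      omega
    exact_mod_cast hnat
  have hbase : (2 : ℝ) ^ (j - 5) ≤ 3 * ((2 ^ j : ℕ) : ℝ) / 64 := by
    have h1 : ((2 ^ j : ℕ) : ℝ) = 2 ^ (j - 5) * 32 := by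
      push_cast
      conv_lhs => rw [show j = (j - 5) + 5 by omega]
      rw [pow_add]; norm_num
    rw [h1]
    have : (0 : ℝ) < 2 ^ (j - 5) := by positivity
    linarith
  have hpos : (0 : ℝ) < 4 * (2 + 96 * ((2 ^ j : ℕ) : ℝ) * (K + 1)) := by positivity
  rw [le_div_iff₀ (by positivity)]
  calc (2 : ℝ) ^ (4 ^ (j - 1)) * (4 * (2 + 96 * ((2 ^ j : ℕ) : ℝ) * (K + 1)) * 2 ^ (48 * 2 ^ j))
      ≤ (2 : ℝ) ^ (4 ^ (j - 1)) * (2 ^ (3 * j + 12) * 2 ^ (48 * 2 ^ j)) := by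
        gcongr
    _ = (2 : ℝ) ^ (4 ^ (j - 1) + (3 * j + 12) + 48 * 2 ^ j) := by
        rw [pow_add, pow_add]; ring
    _ ≤ (2 : ℝ) ^ ((j - 5) * K) := pow_le_pow_right₀ (by norm_num) hexp
    _ = ((2 : ℝ) ^ (j - 5)) ^ K := by rw [pow_mul]
    _ ≤ _ := by gcongr

theorem log_bound (d j l : ℕ) (hj : 12 ≤ j) (hd : d < 2 ^ (l + 1)) (hd1 : 3 ≤ d) (hl1 : 1 ≤ l)
    (hlj : (j + 1) * l < 98 * 16 ^ (j + 1)) :
    Real.exp (1 / 1000 * Real.sqrt (Real.log d * Real.log (Real.log d))) ≤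
      (2 : ℝ) ^ (4 ^ (j - 1)) := by
  have hd0 : (0 : ℝ) < d := by positivity
  have hlog2 : Real.log 2 < 0.6931471808 := Real.log_two_lt_d9
  have hlog2' : 0.6931471803 < Real.log 2 := Real.log_two_gt_d9
  have hL : Real.log d ≤ 2 * l := by
    have h1 : Real.log d ≤ Real.log ((2 : ℝ) ^ (l + 1)) := by
      apply Real.log_le_log hd0
      exact_mod_cast hd.le
    rw [Real.log_pow] at h1
    push_cast at h1
    have h2 : (1 : ℝ) ≤ l := by exact_mod_cast hl1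
    nlinarith
  have hL1 : 1 ≤ Real.log d := by
    have h3 : Real.exp 1 ≤ d := by
      have : Real.exp 1 < 2.7182818286 := Real.exp_one_lt_d9
      have h4 : (3 : ℝ) ≤ d := by exact_mod_cast hd1
      linarith
    calc (1 : ℝ) = Real.log (Real.exp 1) := (Real.log_exp 1).symm
      _ ≤ Real.log d := Real.log_le_log (Real.exp_pos 1) h3
  have hLL0 : 0 ≤ Real.log (Real.log d) := Real.log_nonneg hL1
  have hl2 : 2 * l ≤ 2 ^ (4 * j + 12) := by
    have h1 : l ≤ (j + 1) * l := by nlinarith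
    have h2 : 98 * 16 ^ (j + 1) ≤ 2 ^ (4 * j + 11) := by
      have : (16 : ℕ) ^ (j + 1) = 2 ^ (4 * j + 4) := by
        rw [show (16 : ℕ) = 2 ^ 4 by norm_num, ← pow_mul]
        ring_nf
      rw [this, show 4 * j + 11 = (4 * j + 4) + 7 by ring, pow_add 2 (4 * j + 4) 7]
      have : 0 < 2 ^ (4 * j + 4) := by positivity
      omega
    have h3 : 2 ^ (4 * j + 12) = 2 * 2 ^ (4 * j + 11) := by
      rw [show 4 * j + 12 = (4 * j + 11) + 1 by ring, pow_succ]; ring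
    rw [h3]
    omega
  have hLL : Real.log (Real.log d) ≤ 8 * j := by
    have h1 : Real.log (Real.log d) ≤ Real.log ((2 : ℝ) ^ (4 * j + 12)) := by
      apply Real.log_le_log (by linarith)
      calc Real.log d ≤ 2 * l := hL
        _ ≤ (2 : ℝ) ^ (4 * j + 12) := by exact_mod_cast hl2
    rw [Real.log_pow] at h1
    push_cast at h1
    have h2 : (12 : ℝ) ≤ j := by exact_mod_cast hj
    nlinarith
  have hprod : Real.log d * Real.log (Real.log d) ≤ (160 * 4 ^ j) ^ 2 := by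
    have h1 : Real.log d * Real.log (Real.log d) ≤ (2 * l) * (8 * j) := by
      apply mul_le_mul hL hLL hLL0 (by positivity)
    have h2 : (j : ℝ) * l ≤ 98 * 16 ^ (j + 1) := by
      have : j * l ≤ 98 * 16 ^ (j + 1) := by nlinarith
      exact_mod_cast this
    have h3 : ((4 : ℝ) ^ j) ^ 2 = 16 ^ j := by
      rw [← pow_mul, mul_comm, pow_mul]; norm_num
    have h4 : (160 * (4 : ℝ) ^ j) ^ 2 = 25600 * 16 ^ j := by
      rw [mul_pow, h3]; norm_num
    rw [h4]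
    rw [pow_succ] at h2
    have h5 : (0 : ℝ) < 16 ^ j := by positivity
    calc Real.log d * Real.log (Real.log d) ≤ (2 * l) * (8 * j) := h1
      _ = 16 * ((j : ℝ) * l) := by ring
      _ ≤ 16 * (98 * (16 ^ j * 16)) := by linarith
      _ ≤ 25600 * 16 ^ j := by linarith
  have hsqrt : Real.sqrt (Real.log d * Real.log (Real.log d)) ≤ 160 * 4 ^ j := by
    apply Real.sqrt_le_iff.mpr
    exact ⟨by positivity, hprod⟩
  rw [← Real.le_log_iff_exp_le (by positivity), Real.log_pow]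
  push_cast
  have h2 : (4 : ℝ) ^ j = 4 * 4 ^ (j - 1) := by
    conv_lhs => rw [show j = (j - 1) + 1 by omega]
    rw [pow_succ]; ring
  have h5 : (0 : ℝ) < 4 ^ (j - 1) := by positivity
  rw [h2] at hsqrt
  have h6 : (4 : ℝ) ^ (j - 1) * 0.69 ≤ 4 ^ (j - 1) * Real.log 2 :=
    mul_le_mul_of_nonneg_left (by linarith) h5.le
  linarith

end NUMaux

open NUMaux in
theorem num : ∃ c : ℝ, 0 < c ∧ ∃ d₀ : ℕ, ∀ d : ℕ, d₀ ≤ d → ∃ g K : ℕ, 8 ≤ g ∧ 1 ≤ K ∧
    g ^ (K + 1) ≤ 2 ^ (48 * g ^ 2) ∧ 2 ^ (98 * g ^ 2 * K) ≤ d ∧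
    Real.exp (c * Real.sqrt (Real.log d * Real.log (Real.log d))) ≤
      (3 * (g : ℝ) / 64) ^ K / (4 * (2 + 96 * g * (K + 1)) * 2 ^ (48 * g)) := by
  obtain ⟨N, hN⟩ : ∃ N : ℕ, N = 98 * 16 ^ 12 := ⟨_, rfl⟩
  refine ⟨1 / 1000, by norm_num, 2 ^ N, fun d hd => ?_⟩
  set l := Nat.log 2 d with hl
  have hdpos : d ≠ 0 := by
    intro h0
    rw [h0] at hd
    have : 0 < 2 ^ N := Nat.pow_pos (by norm_num)
    exact absurd hd (Nat.not_le.mpr this)
  have hl12' : N ≤ l := Nat.le_log_of_pow_le (by norm_num) hd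
  have hl12 : 98 * 16 ^ 12 ≤ l := hN ▸ hl12'
  obtain ⟨j, hj, hj1, hj2⟩ := exists_j l hl12
  have hj0 : 0 < j := by omega
  have hKj : (4 ^ j / j) * j ≤ 4 ^ j := Nat.div_mul_le_self _ _
  have hKj' : 4 ^ j < (4 ^ j / j + 1) * j := by
    have := Nat.lt_div_mul_add (a := 4 ^ j) hj0
    linarith [add_mul (4 ^ j / j) 1 j]
  have hg2 : (2 ^ j) ^ 2 = 4 ^ j := by
    rw [← pow_mul, mul_comm, pow_mul]; norm_num
  have hjlt : j < 4 ^ j := Nat.lt_pow_self (by norm_num)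
  refine ⟨2 ^ j, 4 ^ j / j, ?_, ?_, ?_, ?_, ?_⟩
  · calc 8 = 2 ^ 3 := by norm_num
      _ ≤ 2 ^ j := Nat.pow_le_pow_right (by norm_num) (by omega)
  · exact Nat.div_pos hjlt.le hj0
  · rw [hg2, ← pow_mul]
    apply Nat.pow_le_pow_right (by norm_num)
    have : j * (4 ^ j / j + 1) = 4 ^ j / j * j + j := by ring
    rw [this]
    omega
  · rw [hg2]
    have h1 : 98 * 4 ^ j * (4 ^ j / j) ≤ l := by
      have h2 : j * (98 * 4 ^ j * (4 ^ j / j)) ≤ j * l := by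
        calc j * (98 * 4 ^ j * (4 ^ j / j)) = 98 * 4 ^ j * (4 ^ j / j * j) := by ring
          _ ≤ 98 * 4 ^ j * 4 ^ j := Nat.mul_le_mul_left _ hKj
          _ = 98 * 16 ^ j := by rw [mul_assoc, ← mul_pow]; norm_num
          _ ≤ j * l := hj1
      exact Nat.le_of_mul_le_mul_left h2 hj0
    calc 2 ^ (98 * 4 ^ j * (4 ^ j / j)) ≤ 2 ^ l := Nat.pow_le_pow_right (by norm_num) h1
      _ ≤ d := Nat.pow_log_le_self 2 hdpos
  · have hrb := real_bound j (4 ^ j / j) hj hKj' hKj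
    have hl1 : 1 ≤ l := by
      have : 1 ≤ 98 * 16 ^ 12 := by norm_num
      omega
    have hd3 : 3 ≤ d := by
      have h1 : 2 ^ l ≤ d := Nat.pow_log_le_self 2 hdpos
      have h2 : 2 ^ 2 ≤ 2 ^ l := Nat.pow_le_pow_right (by norm_num) (by
        have : 2 ≤ 98 * 16 ^ 12 := by norm_num
        omega)
      omega
    have hlb := log_bound d j l hj (Nat.lt_pow_succ_log_self (by norm_num) d) hd3 hl1 hj2
    exact hlb.trans hrb

end Crest.Agent.R210
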